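import Vale.Agent.P092.H766.Z5
import Vale.Agent.P092.H604.T3S

/-!
P092, TEAM P, stage 2 (helper766): the flipped leg of Witt index `r ≥ 3`: the rank count with the
REVERSED source (the letters of the maximal subspaces have values in the points), and T3.
-/

set_option linter.all false

open scoped InnerProductSpace
open Set Filter Topology Module ContinuousLinearMap

namespace Vale.Agent.P092.H766.Z

open Vale.Agent.P092.H303 (FormGroup)
open Vale.Agent.P092.H370.Po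
open Vale.Agent.P092.H714.Cl
open Vale.Agent.P092.H702.TG (YS IS CS)
open Vale.Agent.P092.RC (Cm Moore PicX)
open Vale.Agent.P092.H631.P0 (ul_of_sp)
open Vale.Agent.P092.H232 (Nin)

/-- the reversed source: singular subspaces of dimension `e ≥ 1` -/
def SR {n : Type} [Fintype n] [DecidableEq n] {k : Type} [Field k] (σ : k →+* k)
    (J : Matrix n n k) (e : ℕ) : Type := {X : SGr σ J e // 1 ≤ e}

section src

variable {n : Type} [Fintype n] [DecidableEq n] {k : Type} [Field k]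
  {σ : k →+* k} {ε : k} {J : Matrix n n k}

/-- inclusion -/
def RR (i j : ℕ) (X : SR σ J i) (X' : SR σ J j) : Prop := Inc X.1 X'.1

instance actSR (e : ℕ) : MulAction (FormGroup σ J) (SR σ J e) where
  smul g X := ⟨g • X.1, X.2⟩
  one_smul X := Subtype.ext (one_smul _ X.1)
  mul_smul g g' X := Subtype.ext (mul_smul g g' X.1)

theorem sgeo0S (hF : Frm σ ε J) {r : ℕ} (hW : WI σ J r) :
    P3.SGeo0 r (SR σ J) (RR (σ := σ) (J := J)) (FormGroup σ J) where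
  refl i X X' := ⟨fun h => Subtype.ext (SGr.eq_of_le h), fun h => h ▸ Inc.refl X.1⟩
  trans i j l X Y Z h h' := Inc.trans h h'
  pnt j h1 _ X := by
    obtain ⟨x, hx⟩ := exists_inc_le h1 X.1
    exact ⟨⟨x, le_rfl⟩, hx⟩
  hyp j h1 h2 X := by
    obtain ⟨⟨Y, hY, hd⟩, -⟩ := hW
    obtain ⟨M, hM⟩ := exists_inc_ge hF h2 le_rfl X.1 (SGr.mk' Y hY hd)
    exact ⟨⟨M, h1.trans h2⟩, hM⟩
  act g i j X X' h := (inc_smul g).2 h
  tra j h1 _ X X' := by
    obtain ⟨g, -, h, -⟩ := trans_SGr hF X.1 X'.1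
    exact ⟨g, Subtype.ext h⟩
  con j h1 h2 X X' := by
    obtain ⟨⟨Y, hY, hd⟩, -⟩ := hW
    obtain ⟨Z, -⟩ := exists_inc_le (i := j + 1) (by omega) (SGr.mk' Y hY hd)
    have h := con hF Z X.1 X'.1
    have key : ∀ P : SGr σ J j, Relation.ReflTransGen (fun A B : SGr σ J j =>
        ∃ Z : SGr σ J (j + 1), Inc A Z ∧ Inc B Z) X.1 P →
        Relation.ReflTransGen (fun A B : SR σ J j => ∃ Z : SR σ J (j + 1), RR j (j + 1) A Z ∧
          RR j (j + 1) B Z) X ⟨P, h1⟩ := by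
      intro P hP
      induction hP with
      | refl => exact Relation.ReflTransGen.refl
      | @tail B D _ h ih =>
        obtain ⟨Z, h3, h4⟩ := h
        exact ih.tail ⟨⟨Z, by omega⟩, h3, h4⟩
    exact key X'.1 h

end src

section main

variable {n : Type} [Fintype n] [DecidableEq n] {k : Type} [NontriviallyNormedField k]
  [ProperSpace k] {σ : k →+* k} {ε : k} {J : Matrix n n k}
  {E Γ K : Type} [Group E] [TopologicalSpace E] [Group Γ] [NormedAddCommGroup K]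
  [InnerProductSpace ℂ K] [CompleteSpace K] {ι : FormGroup σ J →* E} {π : E →* (K →L[ℂ] K)}
  {lam : Γ →* (K →L[ℂ] K)} {W : Set (K →L[ℂ] K)} {Ω : K} {q : Γ → FormGroup σ J}
  [Fact (Continuous σ)] [IsUltrametricDist k]

/-- The word lemma for the letters of the maximal subspaces through a point. -/
def W0f (m : ℕ) {i : ℕ} (U : SGr σ J m → (C(SGr σ J i, ℂ) →ₗ[ℂ] (K →L[ℂ] K))) : Prop :=
  ∀ c : SGr σ J 1, ∀ T ∈ Submonoid.closure {T : K →L[ℂ] K | ∃ w f, Inc c w ∧ T = U w f},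
    ∀ w w', Inc c w → Inc c w' → ∀ u h : C(SGr σ J i, ℂ),
      (∀ y ∈ tsupport u, ∀ y' ∈ tsupport h, ¬ Col y y') → U w u * T * U w' h = 0

/-- the calculi of a flipped leg -/
structure Rev (ι : FormGroup σ J →* E) (π : E →* (K →L[ℂ] K)) (lam : Γ →* (K →L[ℂ] K))
    (W : Set (K →L[ℂ] K)) (q : Γ → FormGroup σ J) {j i : ℕ}
    (Fp : SGr σ J 1 → (C(SGr σ J (j + 1), ℂ) →⋆ₐ[ℂ] (K →L[ℂ] K)))
    (Gl : SGr σ J 2 → (C(SGr σ J j, ℂ) →⋆ₐ[ℂ] (K →L[ℂ] K)))
    (Ew : SGr σ J (j + 1) → (C(SGr σ J i, ℂ) →⋆ₐ[ℂ] (K →L[ℂ] K))) : Prop where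
  cm : ∀ p f, Cm W (Fp p f)
  cov : ∀ p γ (f f' : C(SGr σ J (j + 1), ℂ)), (∀ Y, f' (q γ • Y) = f Y) →
    lam γ * Fp p f * lam γ⁻¹ = Fp p f'
  pcov : ∀ p g f, π (ι g) * Fp p f * π (ι g⁻¹) = Fp (g • p) f
  agr : ∀ l l' : SGr σ J 2, l ≠ l' → (∃ X : SGr σ J 3, Inc l X ∧ Inc l' X) →
    ∀ ξ, (∀ f, Gl l f ξ = Gl l' f ξ) → ξ = 0
  com2 : ∀ p l, Inc p l → ∀ g f, Commute (Gl l g) (Fp p f)
  inc2 : ∀ p l, Inc p l → ∀ g f, Nin (fun x y => Inc x y) g f → Gl l g * Fp p f = 0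
  comE : ∀ p w, Inc p w → ∀ a u, Commute (Ew w a) (Fp p u)
  incE : ∀ p w, Inc p w → ∀ a u, Nin (fun x y => Inc x y) a u → Ew w a * Fp p u = 0

/-- **[P2-0], reversed** -/
theorem out_rev (hb : Bs ι π lam W Ω q) (hF : Frm σ ε J) {j : ℕ} (hj : 2 ≤ j)
    (hW : WI σ J (j + 1)) {i : ℕ} (hi : i = j + 1 + 1 - (j + 1))
    {U : SGr σ J (j + 1) → (C(SGr σ J i, ℂ) →ₗ[ℂ] (K →L[ℂ] K))} (hU : Ltr ι π lam W q U)
    (w0 : W0f (j + 1) U) :
    ∃ (Fp : SGr σ J 1 → (C(SGr σ J (j + 1), ℂ) →⋆ₐ[ℂ] (K →L[ℂ] K)))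
      (Gl : SGr σ J 2 → (C(SGr σ J j, ℂ) →⋆ₐ[ℂ] (K →L[ℂ] K)))
      (Ew : SGr σ J (j + 1) → (C(SGr σ J i, ℂ) →⋆ₐ[ℂ] (K →L[ℂ] K))),
      Rev ι π lam W q Fp Gl Ew := by
  subst hi
  obtain ⟨r, hr⟩ : ∃ r, r = j + 1 := ⟨_, rfl⟩
  letI actG : ∀ e, MulAction Γ (YS σ J (j + 1) e) := fun e => hb.act (j + 1) e
  haveI : ∀ e, ContinuousConstSMul Γ (YS σ J (j + 1) e) := fun e => hb.ccs (j + 1) e
  obtain ⟨x₀⟩ := exists_pt_of (by omega) hW
  have D : P3.PkD0 (j + 1) (IS (σ := σ) (J := J)) (CS (σ := σ) (J := J) (j + 1) (j + 1))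
      (RR (σ := σ) (J := J)) Γ (FormGroup σ J) lam (π.comp ι) W
      (fun (_ : Unit) (x : SR σ J (j + 1)) => toC (U x.1) (hU.ul x.1)) := by
    refine
      { hN := by omega
        tgeo := H702.TG.tgeoS (j + 1)
        pgeo := H702.PG.pgeoS hF hW
        sgeo := sgeo0S hF hW
        gI := fun γ i j L L' h => H702.PG.gIS (q γ) i j L L' h
        uG := hb.pic.adjL
        uπ := fun g => by
          change adjoint (π (ι g)) = π (ι g⁻¹)
          rw [hb.pic.adjP, map_inv ι g]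
        sW := hb.pic.Wadj
        one := fun _ x => ?_
        str := fun _ x f => ?_
        covG := fun γ _ x f => ?_
        covπ := fun g _ x f => ?_
        covW := fun w hw _ x f => (hU.cm x.1 f w hw).symm
        zo := ?_
        noinv := ?_
        w0 := ?_ }
    · change U x.1 1 = 1
      rw [(hU.ul x.1).one, Complex.ofReal_one, one_smul]
    · exact ((hU.ul x.1).star f).trans (star_eq_adjoint _)
    · refine hU.cov γ x.1 f _ fun y => ?_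
      change f (q γ⁻¹ • q γ • y) = f y
      rw [hb.qinv, inv_smul_smul]
    · change π (ι g) * U x.1 f * π (ι g⁻¹) = U (g • x.1) f
      rw [map_inv ι g]
      exact hU.pcov g x.1 f
    · intro e h1 h2 X P p1 p2 p3 p4 p5
      obtain ⟨u, hu, hu0⟩ := exists_vec h1 X.1
      refine hb.zo hu0 (X.1.sing u hu u hu) P p1 p2 p3 p4 fun g hg => p5 g ?_
      exact Subtype.ext (hg e X.1 fun a ha => X.1.sing a ha u hu)
    · intro e h1 h2 G g1 g2 g3
      refine hb.noinv (j := j + 1 + 1 - e) hF x₀ (by omega) G g1 g2 fun γ f f' hff => ?_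
      have e1 := g3 γ f
      refine e1.trans (congrArg G ?_)
      ext Y
      change f (q γ⁻¹ • Y) = f' Y
      exact (comp_of (h := hb) hff Y).symm
    · intro c T hT a x b x' hx hx' u h hop
      refine w0 c.1 T ?_ x.1 x'.1 hx hx' u h hop
      refine Submonoid.closure_mono ?_ hT
      rintro _ ⟨_, y, f, hy, rfl⟩
      exact ⟨y.1, f, hy, rfl⟩
  have hne : ∀ e, SR σ J e → Nonempty (YS σ J (j + 1) e) := by
    intro e X
    have h1 := hW.2 X.1.S X.1.sing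
    rw [X.1.dim] at h1
    have h2 := X.2
    obtain ⟨⟨Y, hY, hd⟩, -⟩ := hW
    obtain ⟨Z, -⟩ := exists_inc_le (i := j + 1 + 1 - e) (by omega) (SGr.mk' Y hY hd)
    exact ⟨Z⟩
  obtain ⟨G, hG⟩ := P3.pkOut (P2.locH_of D.tgeo) hne D
  obtain ⟨Fp, hFp⟩ : ∃ Fp : SGr σ J 1 → (C(SGr σ J (j + 1), ℂ) →⋆ₐ[ℂ] (K →L[ℂ] K)),
    Fp = fun p => G 1 ⟨p, le_rfl⟩ := ⟨_, rfl⟩
  obtain ⟨Gl, hGl⟩ : ∃ Gl : SGr σ J 2 → (C(SGr σ J j, ℂ) →⋆ₐ[ℂ] (K →L[ℂ] K)),
    Gl = fun l => G 2 ⟨l, one_le_two⟩ := ⟨_, rfl⟩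
  have c2 : ∀ p l, Inc p l → ∀ g f, Commute (Gl l g) (Fp p f) := by
    intro p l h g f
    subst hFp hGl
    exact (hG.com 1 2 le_rfl one_le_two (by omega) ⟨p, le_rfl⟩ ⟨l, one_le_two⟩ h f g).symm
  have cE : ∀ p w, Inc p w → ∀ a u, Commute (G (j + 1) ⟨w, by omega⟩ a) (Fp p u) := by
    intro p w h a u
    subst hFp
    exact (hG.com 1 (j + 1) le_rfl (by omega) le_rfl ⟨p, le_rfl⟩ ⟨w, by omega⟩ h u a).symm
  refine ⟨Fp, Gl, fun w => G (j + 1) ⟨w, by omega⟩, ?_, ?_, ?_, ?_, c2, ?_, cE, ?_⟩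
  · intro p f w hw
    subst hFp
    exact (hG.covW 1 le_rfl (by omega) ⟨p, le_rfl⟩ w hw f).symm
  · intro p γ f f' hff
    subst hFp
    refine (hG.covG 1 le_rfl (by omega) ⟨p, le_rfl⟩ γ f).trans (congrArg (G 1 ⟨p, le_rfl⟩) ?_)
    ext Y
    change f (q γ⁻¹ • Y) = f' Y
    exact (comp_of (h := hb) hff Y).symm
  · intro p g f
    subst hFp
    exact hG.covπ 1 le_rfl (by omega) ⟨p, le_rfl⟩ g f
  · intro l l' hll hX
    subst hGl
    refine agr_in hb hF (i := j) (by omega) hW (j := 2) (by omega)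
      (G := fun l => G 2 ⟨l, one_le_two⟩) (fun l γ f f' hff => ?_)
      (fun l g f => hG.covπ 2 one_le_two (by omega) ⟨l, one_le_two⟩ g f)
      (fun l f w hw => (hG.covW 2 one_le_two (by omega) ⟨l, one_le_two⟩ w hw f).symm) hll hX
    refine (hG.covG 2 one_le_two (by omega) ⟨l, one_le_two⟩ γ f).trans
      (congrArg (G 2 ⟨l, one_le_two⟩) ?_)
    ext Y
    change f (q γ⁻¹ • Y) = f' Y
    exact (comp_of (h := hb) hff Y).symm
  · intro p l h g f hn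
    rw [(c2 p l h g f).eq]
    subst hFp hGl
    exact hG.inc 1 2 le_rfl one_le_two (by omega) ⟨p, le_rfl⟩ ⟨l, one_le_two⟩ h f g
      fun x hx y hy hxy => hn y hy x hx hxy
  · intro p w h a u hn
    refine (cE p w h a u).eq.trans ?_
    subst hFp
    exact hG.inc 1 (j + 1) le_rfl (by omega) le_rfl ⟨p, le_rfl⟩ ⟨w, by omega⟩ h u a
      fun x hx y hy hxy => hn y hy x hx hxy

end main

end Vale.Agent.P092.H766.Z
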