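import Vale.Agent.P092.H766.Z6
import Vale.Agent.P092.H796.Wd5
import Vale.Agent.P092.H796.Res2

/-!
P092, TEAM P, stage 2 (helper766): the calculi of a straight leg satisfy helper796's `PolH`, `ZP`,
`ZT`: all of them commute as soon as collinear points commute.
-/

set_option linter.all false

open scoped InnerProductSpace
open Set Filter Topology Module ContinuousLinearMap

namespace Vale.Agent.P092.H766.Z

open Vale.Agent.P092.H303 (FormGroup)
open Vale.Agent.P092.H370.Po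
open Vale.Agent.P092.H714.Cl
open Vale.Agent.P092.RC (Cm Moore PicX)
open Vale.Agent.P092.H232 (Nin)
open Vale.Agent.P092.H796 (PolH ZP ZT QI EP NP Ind zo_pair zo_wd)
open Vale.Agent.P092.H702.Pol (Adj)

section bas

variable {S E Γ K : Type} [Group S] [Group E] [TopologicalSpace E] [Group Γ]
  [NormedAddCommGroup K] [InnerProductSpace ℂ K] [CompleteSpace K]
  {π : E →* (K →L[ℂ] K)} {lam : Γ →* (K →L[ℂ] K)} {W : Set (K →L[ℂ] K)} {Ω : K}

theorem bas_of (h : PicX π lam W Ω) : H631.P0.Bas π lam W :=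
  ⟨h.adjP, h.adjL, h.Wadj, h.erg, h.inv⟩

end bas

variable {n : Type} [Fintype n] [DecidableEq n] {k : Type} [NontriviallyNormedField k]
  [ProperSpace k] {σ : k →+* k} {ε : k} {J : Matrix n n k}
  {E Γ K : Type} [Group E] [TopologicalSpace E] [Group Γ] [NormedAddCommGroup K]
  [InnerProductSpace ℂ K] [CompleteSpace K] {ι : FormGroup σ J →* E} {π : E →* (K →L[ℂ] K)}
  {lam : Γ →* (K →L[ℂ] K)} {W : Set (K →L[ℂ] K)} {Ω : K} {q : Γ → FormGroup σ J}
  [Fact (Continuous σ)] [IsUltrametricDist k]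
  {i₀ r : ℕ} {G : ∀ j, SGr σ J j → (C(SGr σ J j, ℂ) →⋆ₐ[ℂ] (K →L[ℂ] K))}

/-- collinear points commute ⟹ subspaces in a common singular subspace commute -/
theorem Cals.comm_in (hG : Cals 1 r (π.comp ι) lam W q G)
    (pts : ∀ a b : SGr σ J 1, Col a b → ∀ f g, Commute (G 1 a f) (G 1 b g)) {i j : ℕ}
    (hi : 1 ≤ i) (hir : i ≤ r) (hj : 1 ≤ j) (hjr : j ≤ r) {A : SGr σ J i} {B : SGr σ J j}
    (h : Col A B) (f g) : Commute (G i A f) (G j B g) := by
  have h1 : ∀ (x : SGr σ J 1) f', Inc x A → Commute (G 1 x f') (G j B g) := fun x f' hx =>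
    hG.cen j hj hjr B (G 1 x f') (fun y f'' hy =>
      (pts x y (fun a ha b hb => h a (hx ha) b (hy hb)) f' f'').eq) g
  exact (hG.cen i hi hir A (G j B g) (fun x f' hx => (h1 x f' hx).eq.symm) f).symm

/-- **the input of helper796's theorem** -/
theorem Cals.polH (hG : Cals 1 r (π.comp ι) lam W q G) (hb : Bs ι π lam W Ω q)
    (hF : Frm σ ε J) (hW : WI σ J r) (hr : 2 ≤ r)
    (pts : ∀ a b : SGr σ J 1, Col a b → ∀ f g, Commute (G 1 a f) (G 1 b g)) : PolH r G where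
  flg j h1 h2 B N h := ⟨fun u g => hG.com j (j + 1) h1 (by omega) (by omega) B N h u g,
    fun u g hn => hG.inc j (j + 1) h1 (by omega) (by omega) B N h u g hn⟩
  col j h1 h2 B B' N hne hB hB' :=
    ⟨fun u v => hG.comm_in pts h1 h2.le h1 h2.le
      (fun x hx y hy => N.sing x (hB hx) y (hB' hy)) u v,
      hG.agr_in hb hF hW h1 h2 hne ⟨N, hB, hB'⟩⟩
  top := by
    obtain ⟨s, rfl⟩ : ∃ s, r = s + 1 := ⟨r - 1, by omega⟩
    intro B B' hne hA
    exact hG.agr_adj hb hF hW (j := s) (by omega) le_rfl hne hA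

/-- the translation of functions by `γ` -/
noncomputable def tr (q : Γ → FormGroup σ J) (γ : Γ) (f : C(SGr σ J 1, ℂ)) : C(SGr σ J 1, ℂ) :=
  ⟨fun y => f ((q γ)⁻¹ • y), f.continuous.comp (continuous_const_smul _)⟩

theorem tr_smul (γ : Γ) (f : C(SGr σ J 1, ℂ)) (y : SGr σ J 1) :
    tr q γ f (q γ • y) = f y := by
  change f ((q γ)⁻¹ • q γ • y) = f y
  rw [inv_smul_smul]

theorem ts_tr {γ : Γ} {f : C(SGr σ J 1, ℂ)} {x : SGr σ J 1} (hx : x ∈ tsupport ⇑(tr q γ f)) :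
    (q γ)⁻¹ • x ∈ tsupport ⇑f := by
  have hc : IsClosed {x : SGr σ J 1 | (q γ)⁻¹ • x ∈ tsupport ⇑f} :=
    (isClosed_tsupport _).preimage (continuous_const_smul _)
  have hs : Function.support ⇑(tr q γ f) ⊆ {x : SGr σ J 1 | (q γ)⁻¹ • x ∈ tsupport ⇑f} :=
    fun y hy => subset_tsupport (⇑f) hy
  exact closure_minimal hs hc hx

/-- fixators -/
def Fx (ι : FormGroup σ J →* E) (u : n → k) : Set E :=
  ι '' {g | ∀ (j : ℕ) (A : SGr σ J j), (∀ a ∈ A.S, hf σ J a u = 0) → g • A = A}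

theorem fx_moore (hb : Bs ι π lam W Ω q) {u : n → k} (hu0 : u ≠ 0) (hu : hf σ J u u = 0) :
    Moore (Fx ι u) :=
  hb.mo u hu0 hu _ fun g hg j A hA => smul_eq_of_fix fun x hx => hg x (hA x hx)

theorem fx_inv {u : n → k} : ∀ g ∈ Fx ι u, g⁻¹ ∈ Fx ι u := by
  rintro _ ⟨g, hg, rfl⟩
  exact ⟨g⁻¹, fun j A hA => by rw [inv_smul_eq_iff, hg j A hA], map_inv ι g⟩

theorem fx_comm (hG : Cals i₀ r (π.comp ι) lam W q G) (hr : 1 ≤ r) {u : n → k} {x : SGr σ J 1}
    (hx : ∀ a ∈ x.S, hf σ J a u = 0) : ∀ g ∈ Fx ι u, ∀ f, G 1 x f * π g = π g * G 1 x f := by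
  rintro _ ⟨g, hg, rfl⟩ f
  have h1 := hG.pcov 1 le_rfl hr x g f
  change π (ι g) * G 1 x f * π (ι g⁻¹) = G 1 (g • x) f at h1
  rw [hg 1 x hx] at h1
  have h2 : π (ι g⁻¹) * π (ι g) = 1 := by
    rw [← map_mul, ← map_mul, inv_mul_cancel, map_one, map_one]
  calc G 1 x f * π (ι g) = π (ι g) * G 1 x f * π (ι g⁻¹) * π (ι g) := by rw [h1]
    _ = π (ι g) * G 1 x f := by rw [mul_assoc, h2, mul_one]

/-- a singular vector orthogonal to two points, if the Witt index is at least two -/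
theorem exists_perp_two (hF : Frm σ ε J) (hW : WI σ J r) (hr : 2 ≤ r) (b b' : SGr σ J 1) :
    ∃ u : n → k, u ≠ 0 ∧ hf σ J u u = 0 ∧ (∀ x ∈ b.S, hf σ J x u = 0) ∧
      ∀ x ∈ b'.S, hf σ J x u = 0 := by
  obtain ⟨⟨Y, hY, hd⟩, -⟩ := hW
  obtain ⟨l, hl⟩ := exists_inc_ge hF (i := 1) (l := 2) (j := r) one_le_two hr b (SGr.mk' Y hY hd)
  obtain ⟨v, v0, hv⟩ := H370.Fo.exists_vec b'
  let φ : l.S →ₗ[k] k :=
    { toFun := fun x => hf σ J x.1 v
      map_add' := fun x y => hf_add_left _ _ _ _ _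
      map_smul' := fun c x => hf_smul_left _ _ _ _ _ }
  have h1 := LinearMap.finrank_range_add_finrank_ker φ
  rw [l.dim] at h1
  have h2 : finrank k (LinearMap.range φ) ≤ 1 :=
    (Submodule.finrank_le _).trans_eq (finrank_self k)
  have h3 : LinearMap.ker φ ≠ ⊥ := by
    intro h0
    rw [h0, finrank_bot] at h1
    omega
  obtain ⟨u, hu, hu0⟩ := Submodule.exists_mem_ne_zero_of_ne_bot h3
  have hu' : hf σ J u.1 v = 0 := hu
  refine ⟨u.1, fun h => hu0 (Subtype.ext h), l.sing _ u.2 _ u.2,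
    fun x hx => l.sing x (hl hx) _ u.2, fun x hx => ?_⟩
  rw [hv] at hx
  obtain ⟨c, rfl⟩ := Submodule.mem_span_singleton.1 hx
  rw [hf_smul_left, hF.symm_zero hu', mul_zero]

theorem Cals.zp (hG : Cals 1 r (π.comp ι) lam W q G) (hb : Bs ι π lam W Ω q)
    (hF : Frm σ ε J) (hW : WI σ J r) (hr : 2 ≤ r) : ZP (G 1) := by
  intro b b' _
  obtain ⟨u, hu0, hu, h1, h2⟩ := exists_perp_two hF hW hr b b'
  exact zo_pair (R := fun x y => Col x y) (bas_of hb.pic) (fx_moore hb hu0 hu) fx_inv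
    (b := G 1 b) (b' := G 1 b')
    (fun f => hG.cm 1 le_rfl (by omega) b f) (fun f => hG.cm 1 le_rfl (by omega) b' f) (tr q)
    (fun γ f => hG.cov 1 le_rfl (by omega) b γ f _ (tr_smul γ f))
    (fun γ f => hG.cov 1 le_rfl (by omega) b' γ f _ (tr_smul γ f))
    (fun γ f f' hn x hx y hy hxy => hn _ (ts_tr hx) _ (ts_tr hy) ((col_smul _).2 hxy))
    (fx_comm hG (by omega) h1) (fx_comm hG (by omega) h2)

theorem ind_smul (g : FormGroup σ J) {m : ℕ} {z : Fin m → SGr σ J 1} :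
    Ind (fun i => g • z i) ↔ Ind z := by
  have e : (⨆ i, (g • z i).S) = act g.1⁻¹ (⨆ i, (z i).S) := by
    simp only [smul_S]
    exact (Submodule.map_iSup _ _).symm
  unfold Ind
  rw [e, finrank_act]

theorem Cals.zt (hG : Cals 1 r (π.comp ι) lam W q G) (hb : Bs ι π lam W Ω q)
    (hr : 2 ≤ r) : ZT (G 1) := by
  intro a a' _ m p h1 h2 hne
  obtain ⟨u, hu, hu0⟩ := exists_vec le_rfl a
  exact zo_wd (bas_of hb.pic) (fx_moore hb hu0 (a.sing u hu u hu)) fx_inv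
    (p := fun i => G 1 (p i)) (fun i f => hG.cm 1 le_rfl (by omega) (p i) f) (tr q)
    (fun γ i f => hG.cov 1 le_rfl (by omega) (p i) γ f _ (tr_smul γ f)) (Q := QI)
    (fun γ f hf z hz => (ind_smul (q γ)⁻¹).1 (hf _ fun i => ts_tr (hz i)))
    (fun g hg i f => fx_comm hG (by omega) (fun x hx => h1 i x hx u hu) g hg f) hne

/-- **all calculi commute** -/
theorem Cals.all (hG : Cals 1 r (π.comp ι) lam W q G) (hb : Bs ι π lam W Ω q)
    (hF : Frm σ ε J) (hW : WI σ J r) (hr : 2 ≤ r)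
    (pts : ∀ a b : SGr σ J 1, Col a b → ∀ f g, Commute (G 1 a f) (G 1 b g)) :
    ∀ i j, 1 ≤ i → i ≤ r → 1 ≤ j → j ≤ r → ∀ (X : SGr σ J i) (X' : SGr σ J j) f f',
      Commute (G i X f) (G j X' f') :=
  H796.all_comm hF hW hF hW hr le_rfl (hG.polH hb hF hW hr pts) (hG.zp hb hF hW hr)
    (hG.zt hb hr)

end Vale.Agent.P092.H766.Z
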