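import Vale.Agent.P092.H618.RkDefs

/-!
P092, TEAM P, Stage 2, row [P2-RK] (helper766): the rank count for polar spaces of rank `N`
(board #6308 (2), #7085): statement.

Index reversed: `Y e`, `1 ≤ e ≤ N`, is the compact metric space of the singular subspaces of vector
dimension `N + 1 - e` of the target: `Y N` = points, `Y 1` = maximal singular subspaces;
`I i j L L'` (`i ≤ j`) means `L ⊇ L'`.  `S e`, `R i j` the same for the source.
`E a x`, `x : S N` a source point, `a : A` (ultrafilters, directions): the letters, bounded linear,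
unital, `*`-preserving maps `C(Y N, ℂ) → B(K)`; not assumed multiplicative or positive.
-/

set_option linter.all false

open scoped Topology
open ContinuousLinearMap

namespace Vale.Agent.P092.H766.P2

open Vale.Agent.P092.H618 (TGeo SGeo Nin)

/-- additional geometry of the target: `Perp` = collinear or equal -/
structure PGeo (N : ℕ) (Y : ℕ → Type) [∀ d, MetricSpace (Y d)] [∀ d, CompactSpace (Y d)]
    (I : ∀ i j, Y i → Y j → Prop) (Perp : Y N → Y N → Prop) : Prop where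
  cl : IsClosed {q : Y N × Y N | Perp q.1 q.2}
  /-- a closed set of pairwise perpendicular points lies in a maximal singular subspace -/
  clq : ∀ C : Set (Y N), IsClosed C → (∀ y ∈ C, ∀ y' ∈ C, Perp y y') →
    ∃ L : Y 1, ∀ y ∈ C, I 1 N L y
  /-- a point near a point of `L` lies in a maximal singular subspace near `L` -/
  opn : ∀ L : Y 1, ∀ U ∈ 𝓝 L, ∀ y, I 1 N L y → {y' | ∃ L' ∈ U, I 1 N L' y'} ∈ 𝓝 y

/-- opposite supports -/
def Opp {P : Type} [TopologicalSpace P] (Perp : P → P → Prop) (u h : C(P, ℂ)) : Prop :=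
  ∀ x ∈ tsupport u, ∀ y ∈ tsupport h, ¬ Perp x y

section

variable {K : Type} [NormedAddCommGroup K] [InnerProductSpace ℂ K] [CompleteSpace K]

/-- the words in the letters of the points of `X` -/
def Wd {N : ℕ} {Y : ℕ → Type} [∀ d, MetricSpace (Y d)] [∀ d, CompactSpace (Y d)] {S : ℕ → Type}
    (R : ∀ i j, S i → S j → Prop) {A : Type} (E : A → S N → (C(Y N, ℂ) →L[ℂ] (K →L[ℂ] K)))
    {j : ℕ} (X : S j) : Submonoid (K →L[ℂ] K) :=
  Submonoid.closure {T | ∃ a x f, R j N X x ∧ T = E a x f}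

/-- all data of the rank count -/
structure PkData (N : ℕ) {Y : ℕ → Type} [∀ d, MetricSpace (Y d)] [∀ d, CompactSpace (Y d)]
    (I : ∀ i j, Y i → Y j → Prop) (Perp : Y N → Y N → Prop) {S : ℕ → Type}
    (R : ∀ i j, S i → S j → Prop)
    (Γ H : Type) [Group Γ] [Group H] [∀ d, MulAction Γ (Y d)]
    [∀ d, ContinuousConstSMul Γ (Y d)] [∀ j, MulAction H (S j)]
    (lamG : Γ →* (K →L[ℂ] K)) (π : H →* (K →L[ℂ] K)) (W : Set (K →L[ℂ] K))
    {A : Type} (E : A → S N → (C(Y N, ℂ) →L[ℂ] (K →L[ℂ] K))) : Prop where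
  hN : 1 ≤ N
  tgeo : TGeo N Y I
  pgeo : PGeo N Y I Perp
  sgeo : SGeo N S R H
  /-- `Γ` preserves incidence in the target -/
  gI : ∀ (γ : Γ) i j L L', I i j L L' → I i j (γ • L) (γ • L')
  uG : ∀ γ, adjoint (lamG γ) = lamG γ⁻¹
  uπ : ∀ g, adjoint (π g) = π g⁻¹
  sW : ∀ w ∈ W, adjoint w ∈ W
  /-- the letters are unital and `*`-preserving -/
  one : ∀ a x, E a x 1 = 1
  str : ∀ a x f, E a x (star f) = adjoint (E a x f)
  /-- covariance -/
  covG : ∀ γ a x f, lamG γ * E a x f * lamG γ⁻¹ =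
    E a x (f.comp ⟨fun y => γ⁻¹ • y, continuous_const_smul γ⁻¹⟩)
  covπ : ∀ g a x f, π g * E a x f * π g⁻¹ = E a (g • x) f
  covW : ∀ w ∈ W, ∀ a x f, w * E a x f = E a x f * w
  /-- zero-one law for the stabiliser of a subspace (Howe-Moore) -/
  zo : ∀ j, 1 ≤ j → j ≤ N → ∀ X : S j, ∀ P : K →L[ℂ] K, adjoint P = P → P * P = P →
    (∀ γ, P * lamG γ = lamG γ * P) → (∀ w ∈ W, P * w = w * P) →
    (∀ g : H, g • X = X → P * π g = π g * P) → P = 0 ∨ P = 1
  /-- the same for the stabiliser of two different subspaces of the same dimension in a common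
  one of the next dimension -/
  zo2 : ∀ j, 1 ≤ j → j < N → ∀ A B : S (j + 1), A ≠ B →
    (∃ X : S j, R j (j + 1) X A ∧ R j (j + 1) X B) → ∀ P : K →L[ℂ] K, adjoint P = P →
    P * P = P → (∀ γ, P * lamG γ = lamG γ * P) → (∀ w ∈ W, P * w = w * P) →
    (∀ g : H, g • A = A → g • B = B → P * π g = π g * P) → P = 0 ∨ P = 1
  /-- no invariant calculus -/
  noinv : ∀ d, 1 ≤ d → d ≤ N → ∀ G : C(Y d, ℂ) →⋆ₐ[ℂ] (K →L[ℂ] K),
    (∀ g f, π g * G f = G f * π g) → (∀ w ∈ W, ∀ f, w * G f = G f * w) →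
    (∀ γ f, lamG γ * G f * lamG γ⁻¹ =
      G (f.comp ⟨fun y => γ⁻¹ • y, continuous_const_smul γ⁻¹⟩)) → False
  /-- the word lemma: opposite letters of points of a maximal singular source subspace `c` -/
  w0 : ∀ c : S 1, ∀ T ∈ Wd (Y := Y) R E c, ∀ a x b x', R 1 N c x → R 1 N c x' →
    ∀ u h, Opp Perp u h → E a x u * T * E b x' h = 0

/-- the output of the rank count: calculi of all singular subspaces of the source -/
structure PkOut (N : ℕ) {Y : ℕ → Type} [∀ d, MetricSpace (Y d)] [∀ d, CompactSpace (Y d)]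
    (I : ∀ i j, Y i → Y j → Prop) {S : ℕ → Type} (R : ∀ i j, S i → S j → Prop)
    (Γ H : Type) [Group Γ] [Group H] [∀ d, MulAction Γ (Y d)]
    [∀ d, ContinuousConstSMul Γ (Y d)] [∀ j, MulAction H (S j)]
    (lamG : Γ →* (K →L[ℂ] K)) (π : H →* (K →L[ℂ] K)) (W : Set (K →L[ℂ] K))
    {A : Type} (E : A → S N → (C(Y N, ℂ) →L[ℂ] (K →L[ℂ] K)))
    (G : ∀ j, S j → (C(Y j, ℂ) →⋆ₐ[ℂ] (K →L[ℂ] K))) : Prop where
  /-- the letters are multiplicative and do not depend on `a` -/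
  top : ∀ a (x : S N) f, G N x f = E a x f
  /-- central in the von Neumann algebra generated by the letters of `X` -/
  cen : ∀ j, 1 ≤ j → j ≤ N → ∀ X : S j, ∀ T : K →L[ℂ] K,
    (∀ a x f, R j N X x → T * E a x f = E a x f * T) → ∀ f, T * G j X f = G j X f * T
  com : ∀ i j, 1 ≤ i → i ≤ j → j ≤ N → ∀ (X : S i) (X' : S j), R i j X X' → ∀ f f',
    Commute (G i X f) (G j X' f')
  inc : ∀ i j, 1 ≤ i → i ≤ j → j ≤ N → ∀ (X : S i) (X' : S j), R i j X X' → ∀ u h,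
    Nin (I i j) u h → G i X u * G j X' h = 0
  covG : ∀ j, 1 ≤ j → j ≤ N → ∀ (X : S j) γ f, lamG γ * G j X f * lamG γ⁻¹ =
    G j X (f.comp ⟨fun y => γ⁻¹ • y, continuous_const_smul γ⁻¹⟩)
  covπ : ∀ j, 1 ≤ j → j ≤ N → ∀ (X : S j) g f, π g * G j X f * π g⁻¹ = G j (g • X) f
  covW : ∀ j, 1 ≤ j → j ≤ N → ∀ (X : S j), ∀ w ∈ W, ∀ f, w * G j X f = G j X f * w
  /-- (AGR) for different subspaces of the same dimension in a common one of the next dimension -/
  agr : ∀ j, 1 ≤ j → j < N → ∀ A B : S (j + 1), A ≠ B →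
    (∃ X : S j, R j (j + 1) X A ∧ R j (j + 1) X B) → ∀ ξ : K,
    (∀ f, G (j + 1) A f ξ = G (j + 1) B f ξ) → ξ = 0

end

/-- **[P2-RK]** -/
def PkStmt : Prop :=
  ∀ (K : Type) [NormedAddCommGroup K] [InnerProductSpace ℂ K] [CompleteSpace K] (N : ℕ)
    (Y : ℕ → Type) [∀ d, MetricSpace (Y d)] [∀ d, CompactSpace (Y d)]
    (I : ∀ i j, Y i → Y j → Prop) (Perp : Y N → Y N → Prop) (S : ℕ → Type)
    (R : ∀ i j, S i → S j → Prop)
    (Γ H : Type) [Group Γ] [Group H] [∀ d, MulAction Γ (Y d)]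
    [∀ d, ContinuousConstSMul Γ (Y d)] [∀ j, MulAction H (S j)]
    (lamG : Γ →* (K →L[ℂ] K)) (π : H →* (K →L[ℂ] K)) (W : Set (K →L[ℂ] K))
    (A : Type) [Nonempty A] (E : A → S N → (C(Y N, ℂ) →L[ℂ] (K →L[ℂ] K))),
    (∀ j, S j → Nonempty (Y j)) → PkData N I Perp R Γ H lamG π W E →
    ∃ G : ∀ j, S j → (C(Y j, ℂ) →⋆ₐ[ℂ] (K →L[ℂ] K)), PkOut N I R Γ H lamG π W E G

end Vale.Agent.P092.H766.P2
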