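import Vale.Agent.P092.H766.P2Agr

/-!
P092, TEAM P, Stage 2 (helper766): AGR for pairs of subspaces of the same dimension in ANY relative
position `Adj` (adjacent maximal subspaces, lines through a point which are opposite in the residue,
..): 0-1 law for the stabiliser of the pair + transitivity on the pairs + connectedness.
-/

set_option linter.all false

open scoped InnerProductSpace
open ContinuousLinearMap

namespace Vale.Agent.P092.H766.P2

open Vale.Agent.P092.H411 (nrm_un Nrm PA Agr PA_of_mem PA_mem comm_PA)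

section gen

variable {K : Type} [NormedAddCommGroup K] [InnerProductSpace ℂ K] [CompleteSpace K]
  {Z S₀ Γ H : Type} [TopologicalSpace Z] [Group Γ] [Group H] [MulAction Γ Z]
  [ContinuousConstSMul Γ Z] [MulAction H S₀]
  {lamG : Γ →* (K →L[ℂ] K)} {π : H →* (K →L[ℂ] K)} {W : Set (K →L[ℂ] K)}
  {F : S₀ → (C(Z, ℂ) →⋆ₐ[ℂ] (K →L[ℂ] K))}

/-- two calculi agree everywhere or nowhere -/
theorem dich_gen (uG : ∀ γ, adjoint (lamG γ) = lamG γ⁻¹) (uπ : ∀ g, adjoint (π g) = π g⁻¹)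
    (sW : ∀ w ∈ W, adjoint w ∈ W)
    (covG : ∀ X γ f, lamG γ * F X f * lamG γ⁻¹ =
      F X (f.comp ⟨fun y => γ⁻¹ • y, continuous_const_smul γ⁻¹⟩))
    (covP : ∀ X g f, π g * F X f * π g⁻¹ = F (g • X) f)
    (covW : ∀ X, ∀ w ∈ W, ∀ f, w * F X f = F X f * w) (A₁ B₁ : S₀)
    (hz : ∀ P : K →L[ℂ] K, adjoint P = P → P * P = P → (∀ γ, P * lamG γ = lamG γ * P) →
      (∀ w ∈ W, P * w = w * P) → (∀ g : H, g • A₁ = A₁ → g • B₁ = B₁ → P * π g = π g * P) →
      P = 0 ∨ P = 1) :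
    (∀ f, F A₁ f = F B₁ f) ∨ ∀ ξ, (∀ f, F A₁ f ξ = F B₁ f ξ) → ξ = 0 := by
  have hp : ∀ g : H, π g * π g⁻¹ = 1 := fun g => by rw [← map_mul, mul_inv_cancel, map_one]
  have hp' : ∀ g : H, π g⁻¹ * π g = 1 := fun g => by rw [← map_mul, inv_mul_cancel, map_one]
  have hl : ∀ g : Γ, lamG g * lamG g⁻¹ = 1 := fun g => by
    rw [← map_mul, mul_inv_cancel, map_one]
  have hl' : ∀ g : Γ, lamG g⁻¹ * lamG g = 1 := fun g => by
    rw [← map_mul, inv_mul_cancel, map_one]
  set P := PA (fun f => F A₁ f) (fun f => F B₁ f) with hP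
  have nL : ∀ γ, Nrm (fun f => F A₁ f) (fun f => F B₁ f) (lamG γ) := by
    intro γ
    refine nrm_un (hl γ) (hl' γ)
      (σ := fun f => f.comp ⟨fun y => γ • y, continuous_const_smul _⟩) ?_ ?_
    · intro f
      have := covG A₁ γ⁻¹ f
      simp only [inv_inv] at this
      exact this
    · intro f
      have := covG B₁ γ⁻¹ f
      simp only [inv_inv] at this
      exact this
  have nW : ∀ w ∈ W, Nrm (fun f => F A₁ f) (fun f => F B₁ f) w := fun w hw =>
    Nrm.of_comm (fun f => (covW A₁ w hw f).symm) fun f => (covW B₁ w hw f).symm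
  have nP : ∀ g : H, g • A₁ = A₁ → g • B₁ = B₁ →
      Nrm (fun f => F A₁ f) (fun f => F B₁ f) (π g) := by
    intro g hA hB
    refine Nrm.of_comm (fun f => ?_) fun f => ?_
    · have := covP A₁ g f
      rw [hA] at this
      calc F A₁ f * π g = π g * F A₁ f * π g⁻¹ * π g := by rw [this]
        _ = π g * F A₁ f * (π g⁻¹ * π g) := by simp only [mul_assoc]
        _ = π g * F A₁ f := by rw [hp', mul_one]
    · have := covP B₁ g f
      rw [hB] at this
      calc F B₁ f * π g = π g * F B₁ f * π g⁻¹ * π g := by rw [this]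
        _ = π g * F B₁ f * (π g⁻¹ * π g) := by simp only [mul_assoc]
        _ = π g * F B₁ f := by rw [hp', mul_one]
  have h01 : P = 0 ∨ P = 1 := by
    refine hz P ?_ ?_ ?_ ?_ ?_
    · rw [hP]
      exact (isSelfAdjoint_iff'.1 (isSelfAdjoint_starProjection
        (Agr (fun f => F A₁ f) fun f => F B₁ f)))
    · ext1 ζ
      exact PA_of_mem (PA_mem ζ)
    · intro γ
      refine comm_PA (nL γ) ?_
      rw [uG]
      exact nL γ⁻¹
    · intro w hw
      exact comm_PA (nW w hw) (nW _ (sW w hw))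
    · intro g hA hB
      refine comm_PA (nP g hA hB) ?_
      rw [uπ]
      exact nP g⁻¹ (by rw [inv_smul_eq_iff, hA]) (by rw [inv_smul_eq_iff, hB])
  rcases h01 with h | h
  · right
    intro ζ hζ
    have := PA_of_mem (β₁ := fun f => F A₁ f) (β₂ := fun f => F B₁ f) hζ
    rw [← hP, h] at this
    exact this.symm
  · left
    intro f
    ext1 ζ
    have := PA_mem (β₁ := fun f => F A₁ f) (β₂ := fun f => F B₁ f) ζ
    rw [← hP, h] at this
    exact this f

/-- **AGR in any relative position.** -/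
theorem agr_gen (uG : ∀ γ, adjoint (lamG γ) = lamG γ⁻¹) (uπ : ∀ g, adjoint (π g) = π g⁻¹)
    (sW : ∀ w ∈ W, adjoint w ∈ W)
    (covG : ∀ X γ f, lamG γ * F X f * lamG γ⁻¹ =
      F X (f.comp ⟨fun y => γ⁻¹ • y, continuous_const_smul γ⁻¹⟩))
    (covP : ∀ X g f, π g * F X f * π g⁻¹ = F (g • X) f)
    (covW : ∀ X, ∀ w ∈ W, ∀ f, w * F X f = F X f * w) (Adj : S₀ → S₀ → Prop)
    (hz : ∀ A B, Adj A B → ∀ P : K →L[ℂ] K, adjoint P = P → P * P = P →
      (∀ γ, P * lamG γ = lamG γ * P) → (∀ w ∈ W, P * w = w * P) →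
      (∀ g : H, g • A = A → g • B = B → P * π g = π g * P) → P = 0 ∨ P = 1)
    (htr : ∀ A B A' B', Adj A B → Adj A' B' → ∃ g : H, g • A = A' ∧ g • B = B')
    (hcon : ∀ A B, Relation.ReflTransGen Adj A B)
    (noinv : ∀ G : C(Z, ℂ) →⋆ₐ[ℂ] (K →L[ℂ] K), (∀ g f, π g * G f = G f * π g) →
      (∀ w ∈ W, ∀ f, w * G f = G f * w) →
      (∀ γ f, lamG γ * G f * lamG γ⁻¹ =
        G (f.comp ⟨fun y => γ⁻¹ • y, continuous_const_smul γ⁻¹⟩)) → False)
    (A₁ B₁ : S₀) (hAB : Adj A₁ B₁) : ∀ ξ, (∀ f, F A₁ f ξ = F B₁ f ξ) → ξ = 0 := by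
  refine (dich_gen uG uπ sW covG covP covW A₁ B₁ (hz A₁ B₁ hAB)).resolve_left fun he => ?_
  have hadj : ∀ P Q : S₀, Adj P Q → ∀ f, F P f = F Q f := by
    intro P Q hPQ f
    obtain ⟨g, hg1, hg2⟩ := htr A₁ B₁ P Q hAB hPQ
    rw [← hg1, ← hg2, ← covP A₁ g f, ← covP B₁ g f, he f]
  have hall : ∀ P Q : S₀, ∀ f, F P f = F Q f := by
    intro P Q f
    have h := hcon P Q
    induction h with
    | refl => rfl
    | tail _ h ih => rw [ih, hadj _ _ h f]
  have hp' : ∀ g : H, π g⁻¹ * π g = 1 := fun g => by rw [← map_mul, inv_mul_cancel, map_one]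
  refine noinv (F A₁) (fun g f => ?_) (covW A₁) (covG A₁)
  have := covP A₁ g f
  rw [hall (g • A₁) A₁] at this
  calc π g * F A₁ f = π g * F A₁ f * (π g⁻¹ * π g) := by rw [hp', mul_one]
    _ = π g * F A₁ f * π g⁻¹ * π g := by simp only [mul_assoc]
    _ = F A₁ f * π g := by rw [this]

end gen

end Vale.Agent.P092.H766.P2
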