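import Vale.Agent.P092.H631.P2Dense
import Vale.Agent.P092.H702.TG2
import Vale.Agent.P092.H962.C.Amp

/-!
P092, TEAM P, stage 2 (helper766): no invariant calculus on the singular subspaces of ANY dimension,
from the proximality on the points alone (field `prox1` of the base record). Ultrametric local
field, any form.
-/

set_option linter.all false

open scoped InnerProductSpace
open Set Filter Topology ContinuousLinearMap

namespace Vale.Agent.P092.H766.NI

open Vale.Agent.P092.H303 (FormGroup)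
open Vale.Agent.P092.H370.Po
open Vale.Agent.P092.H714.Cl
open Vale.Agent.P092.H631.P2 (OppS not_opp_iff opp_open opp_dense)
open Vale.Agent.P092.RC (Cm)

section abs

variable {Y Z U : Type} [TopologicalSpace Y] [CompactSpace Y] [T2Space Y]
  [TotallyDisconnectedSpace Y]

/-- indicator functions -/
noncomputable def ind {D : Set Y} (hD : IsClopen D) : C(Y, ℝ) :=
  (LocallyConstant.charFn ℝ hD : LocallyConstant Y ℝ)

theorem ind_apply {D : Set Y} (hD : IsClopen D) (y : Y) :
    ind hD y = D.indicator (fun _ => (1 : ℝ)) y := by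
  change (LocallyConstant.charFn ℝ hD) y = _
  rw [LocallyConstant.coe_charFn]
  rfl

theorem ind_mem {D : Set Y} (hD : IsClopen D) {y : Y} (h : y ∈ D) : ind hD y = 1 := by
  rw [ind_apply, indicator_of_mem h]

theorem ind_not {D : Set Y} (hD : IsClopen D) {y : Y} (h : y ∉ D) : ind hD y = 0 := by
  rw [ind_apply, indicator_of_notMem h]

theorem ind_nonneg {D : Set Y} (hD : IsClopen D) (y : Y) : 0 ≤ ind hD y := by
  by_cases h : y ∈ D
  · rw [ind_mem hD h]; exact zero_le_one
  · rw [ind_not hD h]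

/-- no state: the mass of a set in some `O z` is at most the mass of every neighbourhood of
`M u`, for every `u`, and there are arbitrarily many pairwise disjoint `M u` -/
theorem no_state (φ : C(Y, ℝ) →ₗ[ℝ] ℝ) (hpos : ∀ f : C(Y, ℝ), (∀ y, 0 ≤ f y) → 0 ≤ φ f)
    (h1 : φ 1 = 1) {O : Z → Set Y} (hO : ∀ z, IsOpen (O z)) (hcov : ∀ y, ∃ z, y ∈ O z)
    {M : U → Set Y} (hM : ∀ u, IsClosed (M u))
    (hN : ∀ N : ℕ, ∃ u : Fin N → U, ∀ i j, i ≠ j → Disjoint (M (u i)) (M (u j)))
    (key : ∀ z u (D V : Set Y) (hD : IsClopen D) (hV : IsClopen V), D ⊆ O z → M u ⊆ V →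
      φ (ind hD) ≤ φ (ind hV)) : False := by
  have mono : ∀ f g : C(Y, ℝ), (∀ y, f y ≤ g y) → φ f ≤ φ g := by
    intro f g h
    have := hpos (g - f) fun y => by
      change 0 ≤ g y - f y
      linarith [h y]
    rw [map_sub] at this
    linarith
  have hA : ∀ z (D : Set Y) (hD : IsClopen D), D ⊆ O z → φ (ind hD) ≤ 0 := by
    intro z D hD hDz
    by_contra hc
    rw [not_le] at hc
    obtain ⟨N, hN1⟩ := exists_nat_gt (1 / φ (ind hD))
    obtain ⟨u, hu⟩ := hN N
    have hA1 : ∀ i, ∃ A : Set Y, IsClopen A ∧ M (u i) ⊆ A ∧ ∀ j, j ≠ i → Disjoint A (M (u j)) := by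
      intro i
      have ho : IsOpen (⋃ j ∈ {j : Fin N | j ≠ i}, M (u j))ᶜ := by
        rw [isOpen_compl_iff]
        exact (Set.toFinite _).isClosed_biUnion fun j _ => hM (u j)
      obtain ⟨A, hA, h2, h3⟩ := exists_clopen_of_closed_subset_open (hM (u i)) ho (by
        intro y hy hy'
        simp only [mem_iUnion] at hy'
        obtain ⟨j, hj, hyj⟩ := hy'
        exact disjoint_left.1 (hu i j (Ne.symm hj)) hy hyj)
      refine ⟨A, hA, h2, fun j hj => ?_⟩
      rw [disjoint_left]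
      intro y hy hy'
      exact h3 hy (mem_biUnion (show j ∈ {j : Fin N | j ≠ i} from hj) hy')
    choose A hA1 hA2 hA3 using hA1
    have hV : ∀ i, IsClopen (A i \ ⋃ j ∈ {j : Fin N | j ≠ i}, A j) := fun i =>
      (hA1 i).diff ((Set.toFinite _).isClopen_biUnion fun j _ => hA1 j)
    have hMV : ∀ i, M (u i) ⊆ A i \ ⋃ j ∈ {j : Fin N | j ≠ i}, A j := by
      intro i y hy
      refine ⟨hA2 i hy, fun hy' => ?_⟩
      simp only [mem_iUnion] at hy'
      obtain ⟨j, hj, hyj⟩ := hy'
      exact disjoint_left.1 (hA3 j i (Ne.symm hj)) hyj hy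
    have h2 : (N : ℝ) * φ (ind hD) ≤ ∑ i : Fin N, φ (ind (hV i)) := by
      have : ∑ i : Fin N, φ (ind hD) ≤ ∑ i : Fin N, φ (ind (hV i)) :=
        Finset.sum_le_sum fun i _ => key z (u i) D _ hD (hV i) hDz (hMV i)
      rwa [Finset.sum_const, Finset.card_univ, Fintype.card_fin, nsmul_eq_mul] at this
    have h3 : ∑ i : Fin N, φ (ind (hV i)) ≤ 1 := by
      rw [← map_sum, ← h1]
      refine mono _ _ fun y => ?_
      rw [ContinuousMap.coe_sum, Finset.sum_apply]
      change ∑ i : Fin N, ind (hV i) y ≤ 1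
      by_cases hy : ∃ i, y ∈ A i \ ⋃ j ∈ {j : Fin N | j ≠ i}, A j
      · obtain ⟨i, hi⟩ := hy
        rw [Finset.sum_eq_single i]
        · rw [ind_mem _ hi]
        · intro j _ hj
          refine ind_not _ fun hyj => hi.2 ?_
          exact mem_biUnion (show j ∈ {j : Fin N | j ≠ i} from hj) hyj.1
        · intro h; exact absurd (Finset.mem_univ i) h
      · push Not at hy
        rw [Finset.sum_eq_zero fun i _ => ind_not _ (hy i)]
        exact zero_le_one
    have h4 : 1 < (N : ℝ) * φ (ind hD) := by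
      rw [div_lt_iff₀ hc] at hN1
      exact hN1
    linarith
  have hB : ∀ y : Y, ∃ D : Set Y, IsClopen D ∧ y ∈ D ∧ ∃ z, D ⊆ O z := by
    intro y
    obtain ⟨z, hz⟩ := hcov y
    obtain ⟨D, hD, hy, hDO⟩ := compact_exists_isClopen_in_isOpen (hO z) hz
    exact ⟨D, hD, hy, z, hDO⟩
  choose D hD hyD zz hDz using hB
  obtain ⟨t, ht⟩ := isCompact_univ.elim_finite_subcover D (fun y => (hD y).isOpen)
    (fun y _ => mem_iUnion.2 ⟨y, hyD y⟩)
  have h5 : φ 1 ≤ ∑ y ∈ t, φ (ind (hD y)) := by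
    rw [← map_sum]
    refine mono _ _ fun y => ?_
    obtain ⟨a, ha, hya⟩ := mem_iUnion₂.1 (ht (mem_univ y))
    rw [ContinuousMap.coe_sum, Finset.sum_apply]
    change (1 : ℝ) ≤ ∑ a ∈ t, ind (hD a) y
    rw [← ind_mem (hD a) hya]
    exact Finset.single_le_sum (f := fun a => ind (hD a) y) (fun b _ => ind_nonneg _ _) ha
  have h6 : ∑ y ∈ t, φ (ind (hD y)) ≤ 0 :=
    Finset.sum_nonpos fun y _ => hA (zz y) _ (hD y) (hDz y)
  rw [h1] at h5
  linarith

end abs

section geo

variable {n : Type} [Fintype n] [DecidableEq n] {k : Type} [NontriviallyNormedField k]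
  [ProperSpace k] {σ : k →+* k} {ε : k} {J : Matrix n n k} {i j : ℕ}

theorem near_inc' (hσ : Continuous σ) (hF : Frm σ ε J) {y : SGr σ J i}
    {L : SGr σ J j} (h : Inc y L) {U : Set (SGr σ J i)} (hU : U ∈ 𝓝 y) :
    ∀ᶠ L' in 𝓝 L, ∃ y' ∈ U, Inc y' L' := by
  have h1 : (fun g : FormGroup σ J => g • y) ⁻¹' U ∈ 𝓝 (1 : FormGroup σ J) := by
    refine (continuous_id.smul continuous_const).continuousAt.preimage_mem_nhds ?_
    change U ∈ 𝓝 ((1 : FormGroup σ J) • y)
    rw [one_smul]
    exact hU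
  have h2 := (H702.TG.orbit_open hσ hF L).image_mem_nhds h1
  rw [one_smul] at h2
  filter_upwards [h2] with L' hL'
  obtain ⟨g, hg, rfl⟩ := hL'
  exact ⟨g • y, hg, (inc_smul g).2 h⟩

theorem oppS_pt {x y : SGr σ J 1} : OppS x y ↔ ¬ Col x y := by
  constructor
  · intro h hc
    have h2 : ∃ P : SGr σ J 1, Inc P x ∧ Col P y := ⟨x, Inc.refl x, hc⟩
    exact not_opp_iff.2 h2 h
  · intro h
    by_contra hn
    obtain ⟨P, h1, h2⟩ := not_opp_iff.1 hn
    rw [inc_iff_eq] at h1
    subst h1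
    exact h h2

variable [Fact (Continuous σ)]

/-- arbitrarily many pairwise opposite points -/
theorem pairwise_opp (hF : Frm σ ε J) (x₀ : SGr σ J 1) (N : ℕ) :
    ∃ u : Fin N → SGr σ J 1, ∀ i j, i ≠ j → ¬ Col (u i) (u j) := by
  have hσ : Continuous σ := Fact.out
  induction N with
  | zero => exact ⟨fun i => i.elim0, fun i => i.elim0⟩
  | succ N ih =>
    obtain ⟨u, hu⟩ := ih
    have hd : Dense (⋂ i : Fin N, {x : SGr σ J 1 | OppS x (u i)}) := by
      refine dense_iInter_of_isOpen (fun i => opp_open hσ (u i)) fun i => ?_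
      rw [dense_iff_inter_open]
      intro U hU hUn
      obtain ⟨X, hX, hX2⟩ := opp_dense hF hσ hU hUn (u i)
      exact ⟨X, hX, hX2⟩
    haveI : Nonempty (SGr σ J 1) := ⟨x₀⟩
    obtain ⟨x, hx⟩ := hd.nonempty
    have hx' : ∀ i, ¬ Col x (u i) := fun i => oppS_pt.1 (mem_iInter.1 hx i)
    refine ⟨Fin.cons x u, fun i j hij => ?_⟩
    induction i using Fin.cases with
    | zero =>
      induction j using Fin.cases with
      | zero => exact absurd rfl hij
      | succ j => simpa using hx' j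
    | succ i =>
      induction j using Fin.cases with
      | zero =>
        simp only [Fin.cons_succ, Fin.cons_zero]
        exact fun h => hx' i (Ort.symm hF h)
      | succ j =>
        simp only [Fin.cons_succ]
        exact hu i j fun h => hij (by rw [h])

variable [IsUltrametricDist k]

/-- **no invariant calculus of any type** -/
theorem noinv (hF : Frm σ ε J) (x₀ : SGr σ J 1) {E Γ K : Type} [Group E] [TopologicalSpace E]
    [Group Γ] [NormedAddCommGroup K] [InnerProductSpace ℂ K] [CompleteSpace K]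
    {π : E →* (K →L[ℂ] K)} {lam : Γ →* (K →L[ℂ] K)} {W : Set (K →L[ℂ] K)} {Ω : K}
    (hp : RC.PicX π lam W Ω) {q : Γ → FormGroup σ J}
    (prox : ∀ (z : SGr σ J 1) (D : Set (SGr σ J 1)), IsCompact D → (∀ y ∈ D, ¬ Col y z) →
      ∀ U : Set (SGr σ J 1), IsOpen U → U.Nonempty → ∃ γ, ∀ y ∈ D, q γ • y ∈ U)
    {j : ℕ} (hj : 1 ≤ j) [TotallyDisconnectedSpace (SGr σ J j)]
    [TotallyDisconnectedSpace (SGr σ J 1)]
    (G : C(SGr σ J j, ℂ) →⋆ₐ[ℂ] (K →L[ℂ] K)) (h3 : ∀ g f, π g * G f = G f * π g)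
    (h4 : ∀ w ∈ W, ∀ f, w * G f = G f * w)
    (h5 : ∀ γ (f f' : C(SGr σ J j, ℂ)), (∀ X, f' (q γ • X) = f X) →
      lam γ * G f * lam γ⁻¹ = G f') : False := by
  have hσ : Continuous σ := Fact.out
  obtain ⟨Ω', hΩ1, hinv⟩ := hp.inv
  let cx : C(SGr σ J j, ℝ) →ₗ[ℝ] C(SGr σ J j, ℂ) :=
    { toFun := fun f => ⟨fun x => ((f x : ℝ) : ℂ), Complex.continuous_ofReal.comp f.continuous⟩
      map_add' := fun f g => by ext x; simp
      map_smul' := fun c f => by ext x; simp }
  let φ : C(SGr σ J j, ℝ) →ₗ[ℝ] ℝ :=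
    { toFun := fun f => (⟪Ω', G (cx f) Ω'⟫_ℂ).re
      map_add' := fun f g => by
        rw [map_add, map_add, add_apply, inner_add_right, Complex.add_re]
      map_smul' := fun c f => by
        have e : cx (c • f) = (c : ℂ) • cx f := by ext x; simp [cx]
        rw [e, map_smul, ContinuousLinearMap.smul_apply, inner_smul_right, Complex.re_ofReal_mul]
        rfl }
  have hφ : ∀ f, φ f = (⟪Ω', G (cx f) Ω'⟫_ℂ).re := fun f => rfl
  have hinvφ : ∀ (γ : Γ) (f f' : C(SGr σ J j, ℝ)), (∀ X, f' (q γ • X) = f X) → φ f' = φ f := by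
    intro γ f f' h
    rw [hφ, hφ, ← h5 γ (cx f) (cx f') fun X => by
      change ((f' (q γ • X) : ℝ) : ℂ) = ((f X : ℝ) : ℂ)
      rw [h X]]
    rw [hinv (G (cx f)) (fun w hw => (h4 w hw _).symm) (fun g => (h3 g _).symm) γ]
  have hpos : ∀ f : C(SGr σ J j, ℝ), (∀ y, 0 ≤ f y) → 0 ≤ φ f := by
    intro f hf
    let s : C(SGr σ J j, ℂ) := ⟨fun x => ((Real.sqrt (f x) : ℝ) : ℂ),
      Complex.continuous_ofReal.comp (Real.continuous_sqrt.comp f.continuous)⟩
    have e : cx f = star s * s := by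
      ext x
      change ((f x : ℝ) : ℂ) = star ((Real.sqrt (f x) : ℝ) : ℂ) * ((Real.sqrt (f x) : ℝ) : ℂ)
      rw [Complex.star_def, Complex.conj_ofReal, ← Complex.ofReal_mul, Real.mul_self_sqrt (hf x)]
    rw [hφ, e, map_mul, map_star, star_eq_adjoint]
    change 0 ≤ (⟪Ω', adjoint (G s) (G s Ω')⟫_ℂ).re
    rw [adjoint_inner_right]
    have := inner_self_nonneg (𝕜 := ℂ) (x := G s Ω')
    exact this
  have h1 : φ 1 = 1 := by
    have e : cx 1 = 1 := by ext x; simp [cx]
    rw [hφ, e, map_one]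
    change (⟪Ω', Ω'⟫_ℂ).re = 1
    rw [inner_self_eq_norm_sq_to_K, hΩ1]
    norm_num
  have mono : ∀ f g : C(SGr σ J j, ℝ), (∀ y, f y ≤ g y) → φ f ≤ φ g := by
    intro f g h
    have := hpos (g - f) fun y => by
      change 0 ≤ g y - f y
      linarith [h y]
    rw [map_sub] at this
    linarith
  refine no_state (Z := SGr σ J 1) (U := SGr σ J 1) φ hpos h1
    (O := fun z => {X : SGr σ J j | ¬ Col z X}) (fun z => ?_) (fun X => ?_)
    (M := fun u => {X : SGr σ J j | Inc u X}) (fun u => ?_) (fun N => ?_) ?_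
  · have := (col_closed (σ := σ) (J := J) (i := 1) (j := j) hσ).preimage
      (f := fun X : SGr σ J j => (z, X)) (continuous_const.prodMk continuous_id)
    exact this.isOpen_compl
  · obtain ⟨x, hx⟩ := exists_inc_le hj X
    obtain ⟨z, -, hz⟩ := opp_dense hF hσ isOpen_univ ⟨x, mem_univ _⟩ x
    exact ⟨z, fun hc => (oppS_pt.1 hz) (Ort.mono hc le_rfl hx)⟩
  · exact (inc_closed (σ := σ) (J := J) (i := 1) (j := j)).preimage
      (f := fun X : SGr σ J j => (u, X)) (continuous_const.prodMk continuous_id)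
  · obtain ⟨u, hu⟩ := pairwise_opp hF x₀ N
    refine ⟨u, fun i j hij => ?_⟩
    rw [disjoint_left]
    intro X h1 h2
    exact hu i j hij fun x hx y hy => X.sing x (h1 hx) y (h2 hy)
  · intro z u D V hD hV hDz hMV
    -- a compact set of points opposite to `z` which meets every element of `D`
    have hloc : ∀ X ∈ D, ∃ C : Set (SGr σ J 1), IsClopen C ∧ (∀ x ∈ C, ¬ Col x z) ∧
        {L : SGr σ J j | ∃ x ∈ C, Inc x L} ∈ 𝓝 X := by
      intro X hX
      have h7 : ∃ x : SGr σ J 1, Inc x X ∧ ¬ Col x z := by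
        by_contra hcon
        push Not at hcon
        apply hDz hX
        intro a ha b hb
        by_cases hb0 : b = 0
        · rw [hb0]; exact hf_zero_right _ _ _
        · have hle : Submodule.span k {b} ≤ X.S := (Submodule.span_singleton_le_iff_mem _ _).2 hb
          have h8 := hcon (SGr.mk' (Submodule.span k {b}) (X.sing.mono hle)
            (finrank_span_singleton hb0)) hle
          exact hF.symm_zero (h8 b (Submodule.mem_span_singleton_self b) a ha)
      obtain ⟨x, hx, hxz⟩ := h7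
      have ho : IsOpen {y : SGr σ J 1 | ¬ Col y z} := by
        have := (col_closed (σ := σ) (J := J) (i := 1) (j := 1) hσ).preimage
          (f := fun y : SGr σ J 1 => (y, z)) (continuous_id.prodMk continuous_const)
        exact this.isOpen_compl
      obtain ⟨C, hC, hxC, hCo⟩ := compact_exists_isClopen_in_isOpen ho hxz
      exact ⟨C, hC, fun y hy => hCo hy, near_inc' hσ hF hx (hC.isOpen.mem_nhds hxC)⟩
    choose! C hC1 hC2 hC3 using hloc
    obtain ⟨t, ht, htc⟩ := hD.1.isCompact.elim_nhds_subcover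
      (fun X => {L : SGr σ J j | ∃ x ∈ C X, Inc x L}) hC3
    have hDc : IsCompact (⋃ X ∈ t, C X) :=
      t.isCompact_biUnion fun X hX => (hC1 X (ht X hX)).1.isCompact
    -- a neighbourhood of `u` all of whose points are only in elements of `V`
    have hUo : IsOpen {x : SGr σ J 1 | ∃ L : SGr σ J j, L ∉ V ∧ Inc x L}ᶜ := by
      rw [isOpen_compl_iff]
      have e : {x : SGr σ J 1 | ∃ L : SGr σ J j, L ∉ V ∧ Inc x L} =
          Prod.fst '' ({p : SGr σ J 1 × SGr σ J j | Inc p.1 p.2} ∩ (Prod.snd ⁻¹' Vᶜ)) := by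
        ext x
        constructor
        · rintro ⟨L, h8, h9⟩
          exact ⟨(x, L), ⟨h9, h8⟩, rfl⟩
        · rintro ⟨⟨x', L⟩, ⟨h8, h9⟩, rfl⟩
          exact ⟨L, h9, h8⟩
      rw [e]
      exact ((inc_closed.inter (hV.compl.1.preimage continuous_snd)).isCompact.image
        continuous_fst).isClosed
    obtain ⟨γ, hγ⟩ := prox z _ hDc (by
      intro y hy
      obtain ⟨X, hX, hyX⟩ := mem_iUnion₂.1 hy
      exact hC2 X (ht X hX) y hyX) _ hUo ⟨u, by
        rintro ⟨L, h8, h9⟩
        exact h8 (hMV h9)⟩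
    have hDV : ∀ X ∈ D, q γ • X ∈ V := by
      intro X hX
      obtain ⟨X₀, hX₀, h8⟩ := mem_iUnion₂.1 (htc hX)
      obtain ⟨x, hx, hxX⟩ := h8
      have h9 := hγ x (mem_biUnion hX₀ hx)
      by_contra h10
      exact h9 ⟨q γ • X, h10, (inc_smul (q γ)).2 hxX⟩
    let g : C(SGr σ J j, ℝ) := (ind hV).comp ⟨fun X => q γ • X, continuous_const_smul (q γ)⟩
    have h11 : φ (ind hV) = φ g := hinvφ γ g (ind hV) fun X => rfl
    rw [h11]
    refine mono _ _ fun X => ?_
    by_cases hX : X ∈ D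
    · rw [ind_mem hD hX]
      change (1 : ℝ) ≤ ind hV (q γ • X)
      rw [ind_mem hV (hDV X hX)]
    · rw [ind_not hD hX]
      exact ind_nonneg hV _

end geo

end Vale.Agent.P092.H766.NI
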