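import Vale.Agent.P092.H766.P2Q

/-!
P092, TEAM P, [P2-RK] (helper766), part 3: the clique step.  If opposite letters annihilate each
other through all words, then the values of all letters lie in a common maximal subspace.
-/

set_option linter.all false

namespace Vale.Agent.P092.H766.P2

open scoped InnerProductSpace Topology
open ContinuousLinearMap Set Filter Metric
open Vale.Agent.P092.H729.Rk (Good pj sp pj_adj pj_idem pj_mem pj_self pj_comm pj_inf pj_top pj_bot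
  good_sp good_iInf isClosed_sp sp_le le_sp map_sp hyp hyp_mono isClosed_hyp pj_symm cl_eq
  eq_top_of_orth exists_bump)
open Vale.Agent.P092.H560 (Full NN hat mem_NN)

section gen

variable {K : Type*} [NormedAddCommGroup K] [InnerProductSpace ℂ K] [CompleteSpace K]
variable {Z : Type} [MetricSpace Z] [CompactSpace Z]
variable {ι : Type*} {lm : ι → (C(Z, ℂ) →L[ℂ] (K →L[ℂ] K))} {J : Set ι}

/-- a function which is `1` on the closed set `B` and supported in the closed set `B'`, if `B`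
lies in an open subset of `B'` -/
theorem exists_cut {B U B' : Set Z} (hB : IsClosed B) (hU : IsOpen U) (hB' : IsClosed B')
    (h1 : B ⊆ U) (h2 : U ⊆ B') : ∃ ψ : C(Z, ℂ), (∀ z ∈ B, ψ z = 1) ∧ tsupport ψ ⊆ B' := by
  obtain ⟨f, hf1, hf0, -⟩ := exists_continuous_one_zero_of_isCompact (hB.isCompact)
    (hU.isClosed_compl) (disjoint_compl_right_iff_subset.2 h1)
  refine ⟨⟨fun x => (f x : ℂ), Complex.continuous_ofReal.comp f.continuous⟩, ?_, ?_⟩
  · intro z hz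
    change ((f z : ℝ) : ℂ) = 1
    rw [hf1 hz]; simp
  · refine closure_minimal ?_ hB'
    intro y hy
    by_contra hyB
    apply hy
    have : y ∈ Uᶜ := fun hyU => hyB (h2 hyU)
    change ((f y : ℝ) : ℂ) = 0
    rw [hf0 this]; simp

/-- the step: cells -/
theorem clq_step (V : Submodule ℂ K) (hV : ∀ i ∈ J, ∀ f, ∀ ζ ∈ V, lm i f ζ ∈ V)
    {Perp : Z → Z → Prop}
    (w0 : ∀ T ∈ Submonoid.closure (Sx lm J), ∀ i ∈ J, ∀ i' ∈ J, ∀ u h, Opp Perp u h →
      lm i u * T * lm i' h = 0) {C : Set Z} (hC : IsClosed C)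
    (hQ : ∃ ζ ∈ V, ζ ≠ 0 ∧ ζ ∈ R lm J C) {η : ℝ} (hη : 0 < η) :
    ∃ C' ⊆ C, IsClosed C' ∧ (∃ ζ ∈ V, ζ ≠ 0 ∧ ζ ∈ R lm J C') ∧
      ∀ y ∈ C', ∀ y' ∈ C', ∃ z z', dist y z ≤ η ∧ dist y' z' ≤ η ∧ Perp z z' := by
  classical
  obtain ⟨t, -, htf, htc⟩ := finite_cover_balls_of_compact (isCompact_univ (X := Z))
    (show 0 < η / 3 by linarith)
  set s := htf.toFinset with hs
  let Cs : Finset Z → Set Z := fun F => C ∩ ⋃ z ∈ F, closedBall z (η / 3)
  have hCs : ∀ F, IsClosed (Cs F) := fun F =>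
    hC.inter (F.finite_toSet.isClosed_biUnion fun z _ => isClosed_closedBall)
  have hs0 : Cs s = C := by
    refine inter_eq_left.2 fun y hy => ?_
    have := htc (mem_univ y)
    rw [mem_iUnion₂] at this
    obtain ⟨z, hz, hyz⟩ := this
    exact mem_iUnion₂.2 ⟨z, htf.mem_toFinset.2 hz, (mem_ball.1 hyz).le⟩
  -- a minimal family
  obtain ⟨F, hF, hmin⟩ : ∃ F : Finset Z, (∃ ζ ∈ V, ζ ≠ 0 ∧ ζ ∈ R lm J (Cs F)) ∧
      ∀ F' : Finset Z, F' ⊂ F → ¬ ∃ ζ ∈ V, ζ ≠ 0 ∧ ζ ∈ R lm J (Cs F') := by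
    have hne : {F : Finset Z | ∃ ζ ∈ V, ζ ≠ 0 ∧ ζ ∈ R lm J (Cs F)}.Nonempty :=
      ⟨s, by rw [mem_setOf_eq, hs0]; exact hQ⟩
    obtain ⟨F, hF, hm⟩ := WellFounded.has_min
      (r := ((· ⊂ ·) : Finset Z → Finset Z → Prop)) wellFounded_lt _ hne
    exact ⟨F, hF, fun F' hlt hF' => hm F' hF' hlt⟩
  refine ⟨Cs F, inter_subset_left, hCs F, hF, fun y hy y' hy' => ?_⟩
  -- the values meet every cell
  have key : ∀ z ∈ F, ∀ ζ ∈ V, ζ ≠ 0 → ζ ∈ R lm J (Cs F) → ∃ T ∈ Submonoid.closure (Sx lm J),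
      ∃ i ∈ J, ∃ u : C(Z, ℂ), tsupport u ⊆ closedBall z (2 * η / 3) ∧ lm i u (T ζ) ≠ 0 := by
    intro z hz ζ hζV hζ0 hζ
    have hno : ζ ∉ R lm J (Cs (F.erase z)) := fun h =>
      hmin _ (Finset.erase_ssubset hz) ⟨ζ, hζV, hζ0, h⟩
    rw [mem_R] at hno
    push Not at hno
    obtain ⟨T, hT, i, hi, h, hh, hne⟩ := hno
    obtain ⟨ψ, hψ1, hψ2⟩ := exists_cut (B := closedBall z (η / 3)) (U := ball z (2 * η / 3))
      (B' := closedBall z (2 * η / 3)) isClosed_closedBall isOpen_ball isClosed_closedBall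
      (closedBall_subset_ball (by linarith)) ball_subset_closedBall
    refine ⟨T, hT, i, hi, h * ψ, ?_, ?_⟩
    · refine (closure_mono ?_).trans hψ2
      intro w hw h0
      apply hw
      change h w * ψ w = 0
      rw [h0, mul_zero]
    · have e : h = h * ψ + h * (1 - ψ) := by ring
      have h0 : lm i (h * (1 - ψ)) (T ζ) = 0 := by
        refine hζ T hT i hi _ fun w hw => ?_
        obtain ⟨hwC, hwF⟩ := hw
        rw [mem_iUnion₂] at hwF
        obtain ⟨z', hz', hwz'⟩ := hwF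
        change h w * (1 - ψ w) = 0
        by_cases hzz : z' = z
        · rw [hψ1 w (hzz ▸ hwz'), sub_self, mul_zero]
        · rw [hh w ⟨hwC, mem_iUnion₂.2 ⟨z', Finset.mem_erase.2 ⟨hzz, hz'⟩, hwz'⟩⟩, zero_mul]
      intro h1
      apply hne
      rw [e, map_add]
      change lm i (h * ψ) (T ζ) + lm i (h * (1 - ψ)) (T ζ) = 0
      rw [h1, h0, add_zero]
  obtain ⟨-, hy1⟩ := hy
  obtain ⟨-, hy1'⟩ := hy'
  rw [mem_iUnion₂] at hy1 hy1'
  obtain ⟨z, hz, hyz⟩ := hy1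
  obtain ⟨z', hz', hyz'⟩ := hy1'
  by_contra hno
  push Not at hno
  have hopp : ∀ a ∈ closedBall z (2 * η / 3), ∀ b ∈ closedBall z' (2 * η / 3), ¬ Perp a b := by
    intro a ha b hb
    refine hno a b ?_ ?_
    · have h1 := mem_closedBall.1 hyz
      have h2 := mem_closedBall'.1 ha
      linarith [dist_triangle y z a]
    · have h1 := mem_closedBall.1 hyz'
      have h2 := mem_closedBall'.1 hb
      linarith [dist_triangle y' z' b]
  obtain ⟨ζ, hζV, hζ0, hζ⟩ := hF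
  obtain ⟨T, hT, i, hi, u, hu, hne⟩ := key z' hz' ζ hζV hζ0 hζ
  have hword : ∀ T ∈ Submonoid.closure (Sx lm J), ∀ ζ ∈ V, T ζ ∈ V := by
    intro T hT
    induction hT using Submonoid.closure_induction with
    | mem a ha =>
      obtain ⟨i, hi, f, rfl⟩ := ha
      exact hV i hi f
    | one => exact fun ζ h => h
    | mul x y _ _ hx hy => exact fun ζ h => hx _ (hy ζ h)
  have hm : lm i u (T ζ) ∈ V := hV i hi u _ (hword T hT ζ hζV)
  have hR : lm i u (T ζ) ∈ R lm J (Cs F) := by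
    refine (good_R (Cs F)).inv _ (mem_Sx hi u) _ ?_
    intro W hW i' hi' h hh
    exact hζ (W * T) (mul_mem hW hT) i' hi' h hh
  obtain ⟨T', hT', i', hi', u', hu', hne'⟩ := key z hz _ hm hne hR
  apply hne'
  have := w0 T' hT' i' hi' i hi u' u fun a ha b hb => hopp a (hu' ha) b (hu hb)
  exact congrArg (fun A : K →L[ℂ] K => A (T ζ)) this

/-- **the clique step** -/
theorem full_of_clique (hs : Str lm) (h1 : ∀ i, lm i 1 = 1) (hJ : J.Nonempty) {Y₁ : Type}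
    [MetricSpace Y₁] {I : Y₁ → Z → Prop} {Perp : Z → Z → Prop}
    (hP : IsClosed {q : Z × Z | Perp q.1 q.2})
    (clq : ∀ C : Set Z, IsClosed C → (∀ y ∈ C, ∀ y' ∈ C, Perp y y') → ∃ L : Y₁, ∀ y ∈ C, I L y)
    (opn : ∀ L : Y₁, ∀ U ∈ 𝓝 L, ∀ y, I L y → {y' | ∃ L' ∈ U, I L' y'} ∈ 𝓝 y)
    (w0 : ∀ T ∈ Submonoid.closure (Sx lm J), ∀ i ∈ J, ∀ i' ∈ J, ∀ u h, Opp Perp u h →
      lm i u * T * lm i' h = 0) : Full (fun C : Set Z => pj (R lm J C)) I := by
  intro ε hε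
  by_contra hbot
  set V := NN (fun C : Set Z => pj (R lm J C)) I ε with hVdef
  have hV : ∀ i ∈ J, ∀ f, ∀ ζ ∈ V, lm i f ζ ∈ V := by
    intro i hi f ζ hζ O hO
    have h2 := (lm_commute_pj_R hs hi f (hat I O)).eq
    have h3 : pj (R lm J (hat I O)) (lm i f ζ) = lm i f (pj (R lm J (hat I O)) ζ) :=
      (congrArg (fun A : K →L[ℂ] K => A ζ) h2).symm
    have h4 : pj (R lm J (hat I O)) ζ = 0 := hζ O hO
    change pj (R lm J (hat I O)) (lm i f ζ) = 0
    rw [h3, h4, map_zero]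
  obtain ⟨ζ₀, hζ₀, hne⟩ := (Submodule.ne_bot_iff _).1 hbot
  let X := {C : Set Z // IsClosed C ∧ ∃ ζ ∈ V, ζ ≠ 0 ∧ ζ ∈ R lm J C}
  have hX0 : ∃ ζ ∈ V, ζ ≠ 0 ∧ ζ ∈ R lm J (univ : Set Z) :=
    ⟨ζ₀, hζ₀, hne, by rw [R_univ]; trivial⟩
  have hstep : ∀ (n : ℕ) (C : X), ∃ C' : X, C'.1 ⊆ C.1 ∧
      ∀ y ∈ C'.1, ∀ y' ∈ C'.1, ∃ z z', dist y z ≤ 1 / ((n : ℝ) + 1) ∧
        dist y' z' ≤ 1 / ((n : ℝ) + 1) ∧ Perp z z' := by
    intro n C
    obtain ⟨C', h1, h2, h3, h4⟩ := clq_step V hV w0 C.2.1 C.2.2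
      (show (0 : ℝ) < 1 / ((n : ℝ) + 1) by positivity)
    exact ⟨⟨C', h2, h3⟩, h1, h4⟩
  choose F hF1 hF2 using hstep
  let Cn : ℕ → X := fun n => Nat.rec ⟨univ, isClosed_univ, hX0⟩ (fun n C => F n C) n
  have hCn : ∀ n, Cn (n + 1) = F n (Cn n) := fun n => rfl
  have hanti : Antitone fun n => (Cn n).1 := by
    refine antitone_nat_of_succ_le fun n => ?_
    rw [hCn]
    exact hF1 n (Cn n)
  have hclq : ∀ y ∈ ⋂ n, (Cn n).1, ∀ y' ∈ ⋂ n, (Cn n).1, Perp y y' := by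
    intro y hy y' hy'
    rw [mem_iInter] at hy hy'
    have h2 : ∀ n : ℕ, ∃ z z', dist y z ≤ 1 / ((n : ℝ) + 1) ∧
        dist y' z' ≤ 1 / ((n : ℝ) + 1) ∧ Perp z z' := by
      intro n
      have e1 := hy (n + 1)
      have e2 := hy' (n + 1)
      rw [hCn] at e1 e2
      exact hF2 n (Cn n) y e1 y' e2
    choose z z' hz hz' hzz using h2
    have t0 : Tendsto (fun n : ℕ => 1 / ((n : ℝ) + 1)) atTop (𝓝 0) :=
      tendsto_one_div_add_atTop_nhds_zero_nat
    have t1 : Tendsto z atTop (𝓝 y) := by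
      rw [tendsto_iff_dist_tendsto_zero]
      refine squeeze_zero (fun n => dist_nonneg) (fun n => ?_) t0
      rw [dist_comm]; exact hz n
    have t2 : Tendsto z' atTop (𝓝 y') := by
      rw [tendsto_iff_dist_tendsto_zero]
      refine squeeze_zero (fun n => dist_nonneg) (fun n => ?_) t0
      rw [dist_comm]; exact hz' n
    exact hP.mem_of_tendsto (t1.prodMk_nhds t2) (Eventually.of_forall hzz)
  obtain ⟨L, hL⟩ := clq _ (isClosed_iInter fun n => (Cn n).2.1) hclq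
  set O : Set Y₁ := closedBall L (ε / 2) with hO
  have hOs : H560.Sm ε O := ⟨isClosed_closedBall, fun a ha b hb => by
    have h1 := mem_closedBall.1 ha
    have h2 := mem_closedBall'.1 hb
    linarith [dist_triangle a L b]⟩
  obtain ⟨n, hn⟩ := exists_subset_nhds_of_isCompact' (hanti.directed_ge)
    (fun n => (Cn n).2.1.isCompact) (fun n => (Cn n).2.1) (U := hat I O) (by
      intro x hx
      exact mem_of_superset (opn L O (closedBall_mem_nhds L (by linarith)) x (hL x hx))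
        fun y' hy' => hy')
  obtain ⟨ζ, hζV, hζ0, hζ⟩ := (Cn n).2.2
  apply hζ0
  have e1 : pj (R lm J (hat I O)) ζ = 0 := hζV O hOs
  rwa [pj_self (R_mono hn hζ)] at e1

end gen

section data

variable {K : Type} [NormedAddCommGroup K] [InnerProductSpace ℂ K] [CompleteSpace K] {N : ℕ}
  {Y : ℕ → Type} [∀ d, MetricSpace (Y d)] [∀ d, CompactSpace (Y d)]
  {I : ∀ i j, Y i → Y j → Prop} {Perp : Y N → Y N → Prop}
  {S : ℕ → Type} {R' : ∀ i j, S i → S j → Prop}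
  {Γ H : Type} [Group Γ] [Group H] [∀ d, MulAction Γ (Y d)]
  [∀ d, ContinuousConstSMul Γ (Y d)] [∀ j, MulAction H (S j)]
  {lamG : Γ →* (K →L[ℂ] K)} {π : H →* (K →L[ℂ] K)} {W : Set (K →L[ℂ] K)}
  {A : Type} [Nonempty A] {E : A → S N → (C(Y N, ℂ) →L[ℂ] (K →L[ℂ] K))}

/-- the values of the letters of a maximal source subspace lie in one maximal subspace -/
theorem q_pt (D : PkData N I Perp R' Γ H lamG π W E) (c : S 1) :
    q (lt E) (JX (N := N) A R' c) (I 1 N) = ⊤ := by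
  have hJ := JX_nonempty D le_rfl D.hN c
  refine top_of_full (h1 D) hJ (full_of_clique (hs D) (h1 D) hJ D.pgeo.cl D.pgeo.clq D.pgeo.opn ?_)
  intro T hT i hi i' hi' u h hop
  rw [← Wd_eq (E := E) (R' := R') c] at hT
  exact D.w0 c T hT i.1 i.2 i'.1 i'.2 hi hi' u h hop

end data

end Vale.Agent.P092.H766.P2
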