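import Vale.Agent.P092.H766.P2Fam

/-!
P092, TEAM P, [P2-RK] (helper766), part 6: the letters of a source point agree with the calculus
of the point (so they are multiplicative and do not depend on the ultrafilter).
-/

set_option linter.all false

open scoped InnerProductSpace
open Set Filter Topology ContinuousLinearMap

namespace Vale.Agent.P092.H766.P2

open Vale.Agent.P092.H618 (Nin)
open Vale.Agent.P092.H729.Rk (pj)
open Vale.Agent.P092.H560 (CPV hat Full Null LOC Calc LocH Nxt exists_nxt pj_conj conj_apply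
  calc_unique calc_eq calc_inc calc_beta isClosed_hat AA AA_apply Part Strong Sm Orth)

section gen

variable {K : Type*} [NormedAddCommGroup K] [InnerProductSpace ℂ K] [CompleteSpace K]

/-- a function which is small on a closed set agrees there with a small function -/
theorem exists_small {Z : Type*} [TopologicalSpace Z] [CompactSpace Z] [T2Space Z] (g : C(Z, ℂ))
    {O : Set Z} (hO : IsClosed O) {κ : ℝ} (hκ : 0 < κ) (h : ∀ z ∈ O, ‖g z‖ ≤ κ) :
    ∃ h : C(Z, ℂ), ‖h‖ ≤ 2 * κ ∧ ∀ z ∈ O, h z = g z := by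
  have hcl : IsClosed {z : Z | 2 * κ ≤ ‖g z‖} := isClosed_le continuous_const g.continuous.norm
  obtain ⟨f, hf1, hf0, hf⟩ := exists_continuous_one_zero_of_isCompact hO.isCompact hcl (by
    rw [Set.disjoint_left]
    intro z hz hz'
    have := h z hz
    have h2 : 2 * κ ≤ ‖g z‖ := hz'
    linarith)
  refine ⟨g * ⟨fun x => (f x : ℂ), Complex.continuous_ofReal.comp f.continuous⟩, ?_, ?_⟩
  · rw [ContinuousMap.norm_le _ (by linarith)]
    intro z
    change ‖g z * ((f z : ℝ) : ℂ)‖ ≤ 2 * κ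
    rw [norm_mul, Complex.norm_real]
    by_cases hz : 2 * κ ≤ ‖g z‖
    · have : f z = 0 := hf0 hz
      rw [this, norm_zero, mul_zero]
      linarith
    · have h2 := hf.2 z
      have h3 : ‖f z‖ ≤ 1 := by
        rw [Real.norm_eq_abs, abs_of_nonneg h2.1]
        exact h2.2
      have h4 := norm_nonneg (g z)
      nlinarith [norm_nonneg (f z)]
  · intro z hz
    change g z * ((f z : ℝ) : ℂ) = g z
    rw [hf1 hz]; simp

/-- an orthogonal sum of small pieces -/
theorem norm_orth_le {ι : Type*} [Fintype ι] {e : ι → (K →L[ℂ] K)} (h : Orth e) (v : ι → K)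
    (ζ : K) {κ : ℝ} (hκ : 0 ≤ κ) (hv : ∀ i, ‖v i‖ ≤ κ * ‖e i ζ‖) :
    ‖∑ i, e i (v i)‖ ≤ κ * ‖ζ‖ := by
  have h1 : ‖∑ i, e i (v i)‖ ^ 2 = ∑ i, ‖e i (v i)‖ ^ 2 := by
    have a1 : ((‖∑ i, e i (v i)‖ ^ 2 : ℝ) : ℂ) = ⟪∑ i, e i (v i), ∑ i, e i (v i)⟫_ℂ := by
      rw [inner_self_eq_norm_sq_to_K]; norm_cast
    have a2 : ⟪∑ i, e i (v i), ∑ i, e i (v i)⟫_ℂ = ((∑ i, ‖e i (v i)‖ ^ 2 : ℝ) : ℂ) := by
      rw [sum_inner, Complex.ofReal_sum]
      refine Finset.sum_congr rfl fun i _ => ?_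
      rw [inner_sum, Finset.sum_eq_single i]
      · rw [inner_self_eq_norm_sq_to_K]; push_cast; rfl
      · intro j _ hj
        exact h.inner_eq hj.symm (v i) (v j)
      · intro hi; exact absurd (Finset.mem_univ i) hi
    exact_mod_cast a1.trans a2
  have h2 : ∀ i, ‖e i (v i)‖ ≤ ‖v i‖ := by
    intro i
    have b1 : ‖e i (v i)‖ ^ 2 ≤ ‖v i‖ ^ 2 := by
      rw [← h.sum_norm_sq (v i)]
      exact Finset.single_le_sum (f := fun j => ‖e j (v i)‖ ^ 2) (fun j _ => sq_nonneg _)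
        (Finset.mem_univ i)
    exact (sq_le_sq₀ (norm_nonneg _) (norm_nonneg _)).1 b1
  have h3 : ‖∑ i, e i (v i)‖ ^ 2 ≤ (κ * ‖ζ‖) ^ 2 := by
    rw [h1, mul_pow, ← h.sum_norm_sq ζ, Finset.mul_sum]
    refine Finset.sum_le_sum fun i _ => ?_
    have := (h2 i).trans (hv i)
    calc ‖e i (v i)‖ ^ 2 ≤ (κ * ‖e i ζ‖) ^ 2 := pow_le_pow_left₀ (norm_nonneg _) this 2
      _ = _ := by rw [mul_pow]
  exact (sq_le_sq₀ (norm_nonneg _) (mul_nonneg hκ (norm_nonneg _))).1 h3

end gen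

section data

variable {K : Type} [NormedAddCommGroup K] [InnerProductSpace ℂ K] [CompleteSpace K] {N : ℕ}
  {Y : ℕ → Type} [∀ d, MetricSpace (Y d)] [∀ d, CompactSpace (Y d)]
  {I : ∀ i j, Y i → Y j → Prop} {Perp : Y N → Y N → Prop}
  {S : ℕ → Type} {R' : ∀ i j, S i → S j → Prop}
  {Γ H : Type} [Group Γ] [Group H] [∀ d, MulAction Γ (Y d)]
  [∀ d, ContinuousConstSMul Γ (Y d)] [∀ j, MulAction H (S j)]
  {lamG : Γ →* (K →L[ℂ] K)} {π : H →* (K →L[ℂ] K)} {W : Set (K →L[ℂ] K)}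
  {A : Type} [Nonempty A] {E : A → S N → (C(Y N, ℂ) →L[ℂ] (K →L[ℂ] K))}

/-- a function vanishing on `C` kills the range of `p_X(C)` -/
theorem lt_kill {j : ℕ} {X : S j} {a : A} {x : S N} (hx : R' j N X x) {C : Set (Y N)}
    {ζ : K} (hζ : ζ ∈ R (lt E) (JX (N := N) A R' X) C) (h : C(Y N, ℂ)) (hh : ∀ z ∈ C, h z = 0) :
    E a x h ζ = 0 :=
  hζ 1 (one_mem _) (a, x) hx h hh

/-- **the letters of a point are its calculus** -/
theorem calc_top (D : PkData N I Perp R' Γ H lamG π W E)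
    (hI : ∀ z z' : Y N, I N N z z' ↔ z = z') (a : A) (x : S N)
    {G : C(Y N, ℂ) →⋆ₐ[ℂ] (K →L[ℂ] K)} (hG : Calc (pX E R' x) (I N N) G) (f : C(Y N, ℂ)) :
    G f = E a x f := by
  have hx : R' N N x x := (D.sgeo.refl N x x).2 rfl
  have hat1 : ∀ O : Set (Y N), hat (I N N) O = O := by
    intro O
    ext z
    constructor
    · rintro ⟨y, hy, hyz⟩
      rwa [← (hI _ _).1 hyz]
    · intro hz
      exact ⟨z, hz, (hI _ _).2 rfl⟩
  have hf : UniformContinuous f := CompactSpace.uniformContinuous_of_continuous f.continuous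
  ext ζ
  rw [← sub_eq_zero]
  refine Vale.Agent.P092.H560.eq_zero_of_norm_le (1 + 2 * ‖E a x‖ * ‖ζ‖) fun κ hκ => ?_
  obtain ⟨r, hr, hfr⟩ := Metric.uniformContinuous_iff.1 hf κ hκ
  obtain ⟨M, e, y, hP, hS, hd⟩ := hG.ap f ζ κ hκ (r / 2) (by linarith)
  have hcom : ∀ i g, Commute (E a x g) (e i) := fun i g =>
    hS i _ fun C hC => lm_commute_pj_R (lm := lt E) (i := (a, x)) (hs D) hx g C
  have hpc : ∀ i, ∃ v : K, ‖v‖ ≤ (2 * κ * ‖E a x‖) * ‖e i ζ‖ ∧
      E a x f (e i ζ) - f (y i) • e i ζ = e i v := by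
    intro i
    obtain ⟨O, hO, hyO, he⟩ := hP.le i
    rw [hat1] at he
    have hmem : e i ζ ∈ R (lt E) (JX (N := N) A R' x) O := by
      have h2 : pX E R' x O (e i ζ) = e i ζ := congrArg (fun T : K →L[ℂ] K => T ζ) he
      rw [← h2]
      exact Vale.Agent.P092.H729.Rk.pj_mem (R_closed O) _
    obtain ⟨h, hh1, hh2⟩ := exists_small (f - ContinuousMap.const (Y N) (f (y i))) hO.1 hκ (by
      intro z hz
      change ‖f z - f (y i)‖ ≤ κ
      rw [← dist_eq_norm]
      exact (hfr (lt_of_le_of_lt (hO.2 z hz _ hyO) (by linarith))).le)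
    have e1 : E a x f (e i ζ) - f (y i) • e i ζ = E a x h (e i ζ) := by
      have e2 : E a x (f - ContinuousMap.const (Y N) (f (y i)) - h) (e i ζ) = 0 := by
        refine lt_kill hx hmem _ fun z hz => ?_
        change f z - f (y i) - h z = 0
        rw [hh2 z hz]
        change f z - f (y i) - (f z - f (y i)) = 0
        ring
      have e3 : (ContinuousMap.const (Y N) (f (y i)) : C(Y N, ℂ)) = f (y i) • (1 : C(Y N, ℂ)) := by
        ext z; simp
      rw [map_sub, map_sub, e3, map_smul, D.one] at e2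
      change E a x f (e i ζ) - f (y i) • (e i ζ) - E a x h (e i ζ) = 0 at e2
      exact sub_eq_zero.1 e2
    refine ⟨E a x h (e i ζ), ?_, ?_⟩
    · refine ((E a x h).le_opNorm _).trans ?_
      refine mul_le_mul_of_nonneg_right ?_ (norm_nonneg _)
      refine ((E a x).le_opNorm h).trans ?_
      calc ‖E a x‖ * ‖h‖ ≤ ‖E a x‖ * (2 * κ) := mul_le_mul_of_nonneg_left hh1 (norm_nonneg _)
        _ = _ := by ring
    · rw [e1]
      have h5 : E a x h (e i ζ) = e i (E a x h ζ) :=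
        congrArg (fun T : K →L[ℂ] K => T ζ) (hcom i h).eq
      have h6 : e i (E a x h (e i ζ)) = e i (E a x h ζ) := by
        rw [h5]
        exact congrArg (fun T : K →L[ℂ] K => T (E a x h ζ)) (hP.idem i)
      rw [h6, h5]
  choose v hv1 hv2 using hpc
  have hsum : E a x f ζ - AA e y f ζ = ∑ i, e i (v i) := by
    have e1 : E a x f ζ = ∑ i, E a x f (e i ζ) := by
      rw [← map_sum, ← ContinuousLinearMap.sum_apply, hP.sum]; rfl
    rw [e1, AA_apply, ← Finset.sum_sub_distrib]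
    exact Finset.sum_congr rfl fun i _ => hv2 i
  have h7 := norm_orth_le hP.toOrth v ζ (by positivity) hv1
  rw [← hsum] at h7
  have h8 : G f ζ - E a x f ζ = -(AA e y f ζ - G f ζ) - (E a x f ζ - AA e y f ζ) := by abel
  rw [h8]
  have h9 := norm_sub_le (-(AA e y f ζ - G f ζ)) (E a x f ζ - AA e y f ζ)
  rw [norm_neg] at h9
  nlinarith

end data

end Vale.Agent.P092.H766.P2
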