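import Vale.Agent.P092.H766.P2Fam
import Vale.Agent.P092.H766.P2Agr
import Vale.Agent.P092.H766.P2Mul
import Vale.Agent.P092.H411.RkLoc

/-!
P092, TEAM P, **[P2-RK]** (helper766): the rank count `D_j = j` for polar spaces (board #6308 (2))
and the output `PkOut`; `pkStmt : PkStmt`.
-/

set_option linter.all false

open scoped InnerProductSpace
open Set Filter Topology ContinuousLinearMap

namespace Vale.Agent.P092.H766.P2

open Vale.Agent.P092.H618 (Nin TGeo)
open Vale.Agent.P092.H729.Rk (pj)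
open Vale.Agent.P092.H560 (CPV hat Full Null LOC Calc LocH Nxt exists_nxt pj_conj conj_apply
  calc_unique calc_eq calc_inc calc_beta isClosed_hat AA Part Strong Sm)

variable {K : Type} [NormedAddCommGroup K] [InnerProductSpace ℂ K] [CompleteSpace K] {N : ℕ}
  {Y : ℕ → Type} [∀ d, MetricSpace (Y d)] [∀ d, CompactSpace (Y d)]
  {I : ∀ i j, Y i → Y j → Prop} {Perp : Y N → Y N → Prop}
  {S : ℕ → Type} {R' : ∀ i j, S i → S j → Prop}
  {Γ H : Type} [Group Γ] [Group H] [∀ d, MulAction Γ (Y d)]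
  [∀ d, ContinuousConstSMul Γ (Y d)] [∀ j, MulAction H (S j)]
  {lamG : Γ →* (K →L[ℂ] K)} {π : H →* (K →L[ℂ] K)} {W : Set (K →L[ℂ] K)}
  {A : Type} [Nonempty A] {E : A → S N → (C(Y N, ℂ) →L[ℂ] (K →L[ℂ] K))}

section rank

variable (E R' I)

open Classical in
/-- the dimension of the value of `X` -/
noncomputable def DD {j : ℕ} (X : S j) : ℕ :=
  Nat.findGreatest (fun d => q (lt E) (JX A R' X) (I d N) = ⊤) N

variable {E R' I}

theorem q_one (D : PkData N I Perp R' Γ H lamG π W E) {j : ℕ} (h1 : 1 ≤ j)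
    (hj : j ≤ N) (X : S j) : q (lt E) (JX A R' X) (I 1 N) = ⊤ := by
  obtain ⟨c, hc⟩ := D.sgeo.pnt j h1 hj X
  exact q_top_mono D hc (q_pt D c)

theorem DD_spec (D : PkData N I Perp R' Γ H lamG π W E) {j : ℕ} (h1 : 1 ≤ j)
    (hj : j ≤ N) (X : S j) : q (lt E) (JX A R' X) (I (DD I R' E X) N) = ⊤ := by
  classical
  exact Nat.findGreatest_spec (P := fun d => q (lt E) (JX A R' X) (I d N) = ⊤) D.hN
    (q_one D  h1 hj X)

theorem one_le_DD (D : PkData N I Perp R' Γ H lamG π W E) {j : ℕ}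
    (h1 : 1 ≤ j) (hj : j ≤ N) (X : S j) : 1 ≤ DD I R' E X := by
  classical
  exact Nat.le_findGreatest D.hN (q_one D  h1 hj X)

theorem DD_le {j : ℕ} (X : S j) : DD I R' E X ≤ N := by
  classical
  exact Nat.findGreatest_le _

theorem le_DD {j d : ℕ} {X : S j} (hd : d ≤ N) (h : q (lt E) (JX A R' X) (I d N) = ⊤) :
    d ≤ DD I R' E X := by
  classical
  exact Nat.le_findGreatest hd h

theorem lvl_DD (D : PkData N I Perp R' Γ H lamG π W E) {j : ℕ} (h1 : 1 ≤ j)
    (hj : j ≤ N) (X : S j) : Lvl E R' I j (DD I R' E X) := by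
  refine ⟨one_le_DD D  h1 hj X, DD_le X, fun X' => ⟨?_, fun hlt => ?_⟩⟩
  · exact full_of_top (P2.h1 D) (JX_nonempty D h1 hj X')
      (q_top_all D h1 hj (DD_spec D  h1 hj X) X')
  · rcases q_zo D h1 hj X' (DD I R' E X + 1) with h | h
    · exfalso
      have h2 := le_DD (Nat.succ_le_of_lt hlt) (q_top_all D h1 hj h X)
      omega
    · exact null_of_bot (P2.h1 D) (JX_nonempty D h1 hj X') h

theorem DD_mono (D : PkData N I Perp R' Γ H lamG π W E) {i j : ℕ}
    (h1 : 1 ≤ i) (hi : i ≤ N) {X : S i} {X' : S j} (hX : R' i j X X') :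
    DD I R' E X ≤ DD I R' E X' :=
  le_DD (DD_le X) (q_top_mono D hX (DD_spec D  h1 hi X))

theorem DD_tra (D : PkData N I Perp R' Γ H lamG π W E) {j : ℕ} (h1 : 1 ≤ j)
    (hj : j ≤ N) (X X' : S j) : DD I R' E X = DD I R' E X' :=
  le_antisymm (le_DD (DD_le X) (q_top_all D h1 hj (DD_spec D  h1 hj X) X'))
    (le_DD (DD_le X') (q_top_all D h1 hj (DD_spec D  h1 hj X') X))

theorem DD_lt (hg : LocH N I) (D : PkData N I Perp R' Γ H lamG π W E) 
    {j : ℕ} (h1 : 1 ≤ j) (hj : j < N) {X : S j} {Z : S (j + 1)} (hX : R' j (j + 1) X Z) :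
    DD I R' E X < DD I R' E Z := by
  by_contra hlt
  have he : DD I R' E Z = DD I R' E X :=
    le_antisymm (not_lt.1 hlt) (DD_mono D  h1 hj.le hX)
  have hl := lvl_DD D  h1 hj.le X
  have hl' := lvl_DD D  (by omega) hj Z
  rw [he] at hl'
  obtain ⟨F, hF⟩ := hl.exists_calc hg D h1 hj.le
  obtain ⟨F', hF'⟩ := hl'.exists_calc hg D (by omega) hj
  have step : ∀ A B : S j, (∃ Z : S (j + 1), R' j (j + 1) A Z ∧ R' j (j + 1) B Z) →
      ∀ f, F A f = F B f := by
    rintro A B ⟨Z, hA, hB⟩ f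
    rw [hl'.eq_of_le hg D (by omega) hj hA (hF A) (hF' Z) f,
      hl'.eq_of_le hg D (by omega) hj hB (hF B) (hF' Z) f]
  have all : ∀ A B : S j, ∀ f, F A f = F B f := by
    intro A B f
    have h := D.sgeo.con j h1 hj A B
    induction h with
    | refl => rfl
    | tail _ h ih => rw [ih, step _ _ h f]
  exact rk_const D hl.1 hl.2.1 (fun X γ f => fam_covG hg D h1 hj.le hl (hF X) γ f)
    (fun X g f => fam_covP hg D h1 hj.le hl hF X g f)
    (fun X w hw f => fam_covW D (hF X) hw f) X (fun g f => all _ _ f)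

theorem exists_up (hg : LocH N I) (D : PkData N I Perp R' Γ H lamG π W E) 
    {j : ℕ} (h1 : 1 ≤ j) (hj : j < N) (X : S j) : ∃ Z : S (j + 1), R' j (j + 1) X Z := by
  by_contra hno
  have hl := lvl_DD D  h1 hj.le X
  obtain ⟨F, hF⟩ := hl.exists_calc hg D h1 hj.le
  have hX : ∀ X' : S j, X' = X := by
    intro X'
    rcases Relation.ReflTransGen.cases_head (D.sgeo.con j h1 hj X X') with h | ⟨B, hB, _⟩
    · exact h.symm
    · exact absurd ⟨hB.choose, hB.choose_spec.1⟩ hno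
  exact rk_const D hl.1 hl.2.1 (fun X γ f => fam_covG hg D h1 hj.le hl (hF X) γ f)
    (fun X g f => fam_covP hg D h1 hj.le hl hF X g f)
    (fun X w hw f => fam_covW D (hF X) hw f) X (fun g f => by rw [hX (g • X)])

theorem DD_le_self (hg : LocH N I) (D : PkData N I Perp R' Γ H lamG π W E)
    : ∀ k j : ℕ, j + k = N → 1 ≤ j → ∀ X : S j, DD I R' E X ≤ j := by
  intro k
  induction k with
  | zero =>
    intro j hjk h1 X
    exact (DD_le X).trans (by omega)
  | succ k ih =>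
    intro j hjk h1 X
    obtain ⟨Z, hZ⟩ := exists_up hg D  h1 (by omega) X
    have h2 := DD_lt hg D  h1 (by omega) hZ
    have h3 := ih (j + 1) (by omega) (by omega) Z
    omega

theorem exists_ge (hg : LocH N I) (D : PkData N I Perp R' Γ H lamG π W E) 
    (c : S 1) {j : ℕ} (h1 : 1 ≤ j) : j ≤ N → ∃ X : S j, j ≤ DD I R' E X := by
  induction j, h1 using Nat.le_induction with
  | base => exact fun hj => ⟨c, one_le_DD D  le_rfl hj c⟩
  | succ j h1 ih =>
    intro hj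
    obtain ⟨X, hX⟩ := ih (by omega)
    obtain ⟨Z, hZ⟩ := exists_up hg D  h1 (by omega) X
    have := DD_lt hg D  h1 (by omega) hZ
    exact ⟨Z, by omega⟩

theorem DD_eq (hg : LocH N I) (D : PkData N I Perp R' Γ H lamG π W E) 
    {j : ℕ} (h1 : 1 ≤ j) (hj : j ≤ N) (X : S j) : DD I R' E X = j := by
  refine le_antisymm (DD_le_self hg D  (N - j) j (by omega) h1 X) ?_
  obtain ⟨c, _⟩ := D.sgeo.pnt j h1 hj X
  obtain ⟨X', hX'⟩ := exists_ge hg D  c h1 hj
  rwa [DD_tra D  h1 hj X X']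

/-- **The rank count.** -/
theorem lvl_self (hg : LocH N I) (D : PkData N I Perp R' Γ H lamG π W E) 
    {j : ℕ} (h1 : 1 ≤ j) (hj : j ≤ N) : Lvl E R' I j j := by
  refine ⟨h1, hj, fun X => ?_⟩
  have := lvl_DD D  h1 hj X
  rw [DD_eq hg D  h1 hj X] at this
  exact this.2.2 X

end rank


/-- **The output of the rank count.** -/
theorem pkOut (hg : LocH N I) (hne : ∀ j, S j → Nonempty (Y j))
    (D : PkData N I Perp R' Γ H lamG π W E) :
    ∃ G : ∀ j, S j → (C(Y j, ℂ) →⋆ₐ[ℂ] (K →L[ℂ] K)), PkOut N I R' Γ H lamG π W E G := by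
  have hex : ∀ j, ∃ F : S j → (C(Y j, ℂ) →⋆ₐ[ℂ] (K →L[ℂ] K)), 1 ≤ j → j ≤ N →
      ∀ X, Calc (pX E R' X) (I j N) (F X) := by
    intro j
    by_cases h : 1 ≤ j ∧ j ≤ N
    · obtain ⟨F, hF⟩ := (lvl_self hg D h.1 h.2).exists_calc hg D h.1 h.2
      exact ⟨F, fun _ _ => hF⟩
    · refine ⟨fun X => (StarAlgHom.ofId ℂ (K →L[ℂ] K)).comp
        (ContinuousMap.evalStarAlgHom ℂ ℂ (hne j X).some), fun h1 h2 => absurd ⟨h1, h2⟩ h⟩
  choose G hG using hex
  refine ⟨G, ?_, ?_, ?_, ?_, ?_, ?_, ?_, ?_⟩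
  · intro a x f
    exact calc_top D (fun z z' => D.tgeo.refl N z z') a x (hG N D.hN le_rfl x) f
  · intro j h1 hj X T hT f
    exact fam_cen D (F := G j) (hG j h1 hj X) (fun a x f hx => hT a x f hx) f
  · intro i j h1 hij hj X X' hX f f'
    exact fam_com D hX (hG i h1 (hij.trans hj) X) (hG j (h1.trans hij) hj X') f f'
  · intro i j h1 hij hj X X' hX u h hn
    exact fam_inc hg D (h1.trans hij) hj h1 hij (lvl_self hg D (h1.trans hij) hj) hX
      (hG i h1 (hij.trans hj) X) (hG j (h1.trans hij) hj X') u h hn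
  · intro j h1 hj X γ f
    exact fam_covG hg D h1 hj (lvl_self hg D h1 hj) (hG j h1 hj X) γ f
  · intro j h1 hj X g f
    exact fam_covP hg D h1 hj (lvl_self hg D h1 hj) (hG j h1 hj) X g f
  · intro j h1 hj X w hw f
    exact fam_covW D (hG j h1 hj X) hw f
  · intro j h1 hj A₁ B₁ hAB hX
    have h1' : 1 ≤ j + 1 := by omega
    have hl := lvl_self hg D h1' hj
    exact rk_agr D h1 hj (F := G (j + 1))
      (fun X γ f => fam_covG hg D h1' hj hl (hG (j + 1) h1' hj X) γ f)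
      (fun X g f => fam_covP hg D h1' hj hl (hG (j + 1) h1' hj) X g f)
      (fun X w hw f => fam_covW D (hG (j + 1) h1' hj X) hw f) A₁ B₁ hAB hX

theorem locH_of {N : ℕ} {Y : ℕ → Type} [∀ d, MetricSpace (Y d)] [∀ d, CompactSpace (Y d)]
    {I : ∀ i j, Y i → Y j → Prop} (D : TGeo N Y I) : LocH N I where
  cl d := D.closed d N
  refl := D.refl N
  loc d h1 h2 := H411.RkLoc.loc D h1 h2
  inc i j hi hij hj u h hn := H411.RkLoc.loci' D hi hij hj (isClosed_tsupport u)
    (isClosed_tsupport h) fun y hy y' hy' => hn y hy y' hy'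
  incN i hi hiN u h hn := H411.RkLoc.loci_top D (isClosed_tsupport u)
    (isClosed_tsupport h) fun y hy y' hy' => hn y hy y' hy'

/-- **[P2-RK]** -/
theorem pkStmt : PkStmt := by
  intro K _ _ _ N Y _ _ I Perp S R' Γ H _ _ _ _ _ lamG π W A _ E hne D
  exact pkOut (locH_of D.tgeo) hne D

end Vale.Agent.P092.H766.P2
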