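import Vale.Agent.P092.H729.Zo

/-!
P092, TEAM P, [P2-RK] (helper766), part 1: the subspaces `R lm J C` of `H729.Rk2` for letters
`lm i : C(Z, ℂ) →L[ℂ] B(K)` which are only bounded, linear, unital and `*`-preserving.
-/

set_option linter.all false

namespace Vale.Agent.P092.H766.P2

open scoped InnerProductSpace Topology
open ContinuousLinearMap
open Vale.Agent.P092.H729.Rk (Good pj sp pj_adj pj_idem pj_mem pj_self pj_comm pj_inf pj_top pj_bot
  good_sp good_iInf isClosed_sp sp_le le_sp map_sp hyp Sm hyp_mono isClosed_hyp pj_symm cl_eq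
  eq_top_of_orth exists_bump)

variable {K : Type*} [NormedAddCommGroup K] [InnerProductSpace ℂ K] [CompleteSpace K]
variable {Z : Type*} [TopologicalSpace Z] [CompactSpace Z]
variable {ι : Type*} (lm : ι → (C(Z, ℂ) →L[ℂ] (K →L[ℂ] K))) (J : Set ι)

/-- `*`-preserving letters -/
def Str : Prop := ∀ i f, lm i (star f) = star (lm i f)

/-- the operators of the family -/
def Sx : Set (K →L[ℂ] K) := {a | ∃ i ∈ J, ∃ f : C(Z, ℂ), lm i f = a}

variable {lm J}

theorem Sx_star (hs : Str lm) : ∀ a ∈ Sx lm J, star a ∈ Sx lm J := by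
  rintro _ ⟨i, hi, f, rfl⟩
  exact ⟨i, hi, star f, hs _ _⟩

theorem Sx_mono {J' : Set ι} (h : J' ⊆ J) : Sx lm J' ⊆ Sx lm J := by
  rintro _ ⟨i, hi, f, rfl⟩
  exact ⟨i, h hi, f, rfl⟩

theorem mem_Sx {i : ι} (hi : i ∈ J) (f : C(Z, ℂ)) : lm i f ∈ Sx lm J := ⟨i, hi, f, rfl⟩

variable (lm J)

/-- the subspace where all `lm i`, `i ∈ J`, live on `C`, after every word -/
def R (C : Set Z) : Submodule ℂ K where
  carrier := {ζ | ∀ W ∈ Submonoid.closure (Sx lm J), ∀ i ∈ J, ∀ h : C(Z, ℂ),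
    (∀ z ∈ C, h z = 0) → lm i h (W ζ) = 0}
  add_mem' := by
    intro a b ha hb W hW i hi h hh
    rw [map_add, map_add, ha W hW i hi h hh, hb W hW i hi h hh, add_zero]
  zero_mem' := by
    intro W _ i _ h _
    rw [map_zero, map_zero]
  smul_mem' := by
    intro c a ha W hW i hi h hh
    rw [map_smul, map_smul, ha W hW i hi h hh, smul_zero]

variable {lm J}

theorem mem_R {C : Set Z} {ζ : K} : ζ ∈ R lm J C ↔ ∀ W ∈ Submonoid.closure (Sx lm J), ∀ i ∈ J,
    ∀ h : C(Z, ℂ), (∀ z ∈ C, h z = 0) → lm i h (W ζ) = 0 := Iff.rfl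

theorem R_closed (C : Set Z) : IsClosed (R lm J C : Set K) := by
  have : (R lm J C : Set K) = ⋂ (W ∈ Submonoid.closure (Sx lm J)) (i ∈ J) (h : C(Z, ℂ))
      (_ : ∀ z ∈ C, h z = 0), {ζ | lm i h (W ζ) = 0} := by
    ext ζ
    simp only [SetLike.mem_coe, mem_R, Set.mem_iInter]
    rfl
  rw [this]
  exact isClosed_iInter fun W => isClosed_iInter fun _ => isClosed_iInter fun i =>
    isClosed_iInter fun _ => isClosed_iInter fun h => isClosed_iInter fun _ =>
    isClosed_eq ((lm i h).continuous.comp W.continuous) continuous_const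

theorem comm_word {b : K →L[ℂ] K} (hb : ∀ a ∈ Sx lm J, b * a = a * b) {W : K →L[ℂ] K}
    (hW : W ∈ Submonoid.closure (Sx lm J)) : b * W = W * b := by
  induction hW using Submonoid.closure_induction with
  | mem a ha => exact hb a ha
  | one => rw [mul_one, one_mul]
  | mul x y _ _ hx hy => rw [← mul_assoc, hx, mul_assoc, hy, mul_assoc]

theorem star_word (hs : Str lm) {W : K →L[ℂ] K} (hW : W ∈ Submonoid.closure (Sx lm J)) :
    star W ∈ Submonoid.closure (Sx lm J) := by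
  induction hW using Submonoid.closure_induction with
  | mem a ha => exact Submonoid.subset_closure (Sx_star hs a ha)
  | one => rw [star_one]; exact one_mem _
  | mul x y _ _ hx hy => rw [star_mul]; exact mul_mem hy hx

theorem good_R (C : Set Z) : Good (Sx lm J) (R lm J C) := by
  refine ⟨R_closed C, ?_, ?_⟩
  · intro a ha v hv W hW i hi h hh
    exact hv (W * a) (Submonoid.mul_mem _ hW (Submonoid.subset_closure ha)) i hi h hh
  · intro b hb v hv W hW i hi h hh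
    have h1 : W (b v) = b (W v) :=
      congrArg (fun T : K →L[ℂ] K => T v) (comm_word hb hW).symm
    have h2 : lm i h (b (W v)) = b (lm i h (W v)) :=
      congrArg (fun T : K →L[ℂ] K => T (W v)) (hb _ (mem_Sx hi h)).symm
    rw [h1, h2, hv W hW i hi h hh, map_zero]

theorem R_mono {C D : Set Z} (h : C ⊆ D) : R lm J C ≤ R lm J D :=
  fun _ hζ W hW i hi f hf => hζ W hW i hi f fun z hz => hf z (h hz)

theorem R_anti {J' : Set ι} (h : J' ⊆ J) (C : Set Z) : R lm J C ≤ R lm J' C :=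
  fun _ hζ W hW i hi f hf => hζ W (Submonoid.closure_mono (Sx_mono h) hW) i (h hi) f hf

/-- the functions killed by `l` at `ξ` contain the closed ideal generated by two ideals -/
theorem kill_inter [T2Space Z] (l : C(Z, ℂ) →L[ℂ] (K →L[ℂ] K)) (ξ : K) {C D : Set Z}
    (h1 : ∀ h : C(Z, ℂ), (∀ z ∈ C, h z = 0) → l h ξ = 0)
    (h2 : ∀ h : C(Z, ℂ), (∀ z ∈ D, h z = 0) → l h ξ = 0) (hC : IsClosed C) (hD : IsClosed D)
    (h : C(Z, ℂ)) (hh : ∀ z ∈ C ∩ D, h z = 0) : l h ξ = 0 := by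
  set I₀ : Ideal C(Z, ℂ) := ContinuousMap.idealOfSet ℂ Cᶜ ⊔ ContinuousMap.idealOfSet ℂ Dᶜ with hI₀
  have hm : h ∈ I₀.closure := by
    rw [← ContinuousMap.idealOfSet_ofIdeal_eq_closure, ContinuousMap.mem_idealOfSet]
    intro z hz
    refine hh z ?_
    constructor
    · by_contra hzC
      obtain ⟨u, hu1, hu2⟩ := exists_bump hC hzC
      apply hz
      rw [ContinuousMap.mem_setOfIdeal]
      refine ⟨u, ?_, by rw [hu1]; exact one_ne_zero⟩
      refine Ideal.mem_sup_left ((ContinuousMap.mem_idealOfSet).2 fun w hw => ?_)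
      by_contra hne
      exact (Set.disjoint_left.1 hu2) (subset_tsupport _ hne) (not_not.1 hw)
    · by_contra hzD
      obtain ⟨u, hu1, hu2⟩ := exists_bump hD hzD
      apply hz
      rw [ContinuousMap.mem_setOfIdeal]
      refine ⟨u, ?_, by rw [hu1]; exact one_ne_zero⟩
      refine Ideal.mem_sup_right ((ContinuousMap.mem_idealOfSet).2 fun w hw => ?_)
      by_contra hne
      exact (Set.disjoint_left.1 hu2) (subset_tsupport _ hne) (not_not.1 hw)
  have hcl : IsClosed {f : C(Z, ℂ) | l f ξ = 0} :=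
    isClosed_eq ((ContinuousLinearMap.apply ℂ K ξ).continuous.comp l.continuous)
      continuous_const
  have hsub : (I₀ : Set C(Z, ℂ)) ⊆ {f : C(Z, ℂ) | l f ξ = 0} := by
    intro f hf
    obtain ⟨a, ha, b, hb, rfl⟩ := Submodule.mem_sup.1 hf
    have ea : l a ξ = 0 := h1 a fun z hz => (ContinuousMap.mem_idealOfSet.1 ha) (not_not.2 hz)
    have eb : l b ξ = 0 := h2 b fun z hz => (ContinuousMap.mem_idealOfSet.1 hb) (not_not.2 hz)
    change l (a + b) ξ = 0
    rw [map_add]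
    change l a ξ + l b ξ = 0
    rw [ea, eb, add_zero]
  have : h ∈ closure (I₀ : Set C(Z, ℂ)) := hm
  exact (closure_minimal hsub hcl) this

theorem R_inter [T2Space Z] {C D : Set Z} (hC : IsClosed C) (hD : IsClosed D) :
    R lm J C ⊓ R lm J D = R lm J (C ∩ D) := by
  ext ζ
  constructor
  · rintro ⟨h1, h2⟩ W hW i hi h hh
    exact kill_inter (lm i) (W ζ) (h1 W hW i hi) (h2 W hW i hi) hC hD h hh
  · intro h
    exact ⟨R_mono Set.inter_subset_left h, R_mono Set.inter_subset_right h⟩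

theorem R_empty (h1 : ∀ i, lm i 1 = 1) (hJ : J.Nonempty) : R lm J (∅ : Set Z) = ⊥ := by
  rw [eq_bot_iff]
  intro ζ hζ
  obtain ⟨i, hi⟩ := hJ
  have := hζ 1 (Submonoid.one_mem _) i hi 1 (fun z hz => hz.elim)
  rw [h1] at this
  exact (Submodule.mem_bot ℂ).2 this

theorem R_univ : R lm J (Set.univ : Set Z) = ⊤ := by
  rw [eq_top_iff]
  intro ζ _ W _ i _ h hh
  have : h = 0 := by ext z; exact hh z trivial
  rw [this, map_zero]
  rfl

/-- covariance of `R` under an operator that intertwines the families -/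
theorem R_map {K' : Type*} [NormedAddCommGroup K'] [InnerProductSpace ℂ K'] [CompleteSpace K']
    {Z' : Type*} [TopologicalSpace Z'] [CompactSpace Z']
    {ι' : Type*} {lm' : ι' → (C(Z', ℂ) →L[ℂ] (K' →L[ℂ] K'))} {J' : Set ι'}
    (U : K →L[ℂ] K') (σ : ι' → ι) (τ : C(Z, Z')) (hσ : ∀ i ∈ J', σ i ∈ J)
    (hU : ∀ i ∈ J', ∀ (f : C(Z', ℂ)) (ξ : K), lm' i f (U ξ) = U (lm (σ i) (f.comp τ) ξ))
    {C : Set Z} {C' : Set Z'} (hC : ∀ z ∈ C, τ z ∈ C') :
    ∀ ζ ∈ R lm J C, U ζ ∈ R lm' J' C' := by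
  have hword : ∀ W ∈ Submonoid.closure (Sx lm' J'), ∃ W' ∈ Submonoid.closure (Sx lm J),
      ∀ ξ, W (U ξ) = U (W' ξ) := by
    intro W hW
    induction hW using Submonoid.closure_induction with
    | mem a ha =>
      obtain ⟨i, hi, f, rfl⟩ := ha
      exact ⟨_, Submonoid.subset_closure (mem_Sx (hσ i hi) (f.comp τ)), hU i hi f⟩
    | one => exact ⟨1, Submonoid.one_mem _, fun _ => rfl⟩
    | mul x y _ _ hx hy =>
      obtain ⟨a, ha, ha'⟩ := hx
      obtain ⟨b, hb, hb'⟩ := hy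
      refine ⟨a * b, Submonoid.mul_mem _ ha hb, fun ξ => ?_⟩
      change x (y (U ξ)) = U (a (b ξ))
      rw [hb', ha']
  intro ζ hζ W hW i hi h hh
  obtain ⟨W', hW', e⟩ := hword W hW
  rw [e, hU i hi, hζ W' hW' (σ i) (hσ i hi) _ (fun z hz => hh _ (hC z hz)), map_zero]

/-! ### Small sets of `Y` and the subspaces `Qb`, `q` -/

variable {Y : Type*} [PseudoMetricSpace Y]

variable (lm J)

/-- closed span of the `R (hyp O)`, `O` closed of diameter at most `ε` meeting `B` -/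
noncomputable def Qb (inc : Y → Z → Prop) (B : Set Y) (ε : ℝ) : Submodule ℂ K :=
  sp fun O : {O : Set Y // O ∈ Sm (Y := Y) ε ∧ (O ∩ B).Nonempty} => R lm J (hyp inc O.1)

/-- the closed-set calculus of the subspaces -/
noncomputable def G (inc : Y → Z → Prop) (B : Set Y) : Submodule ℂ K :=
  ⨅ ε : {ε : ℝ // 0 < ε}, Qb lm J inc B ε.1

/-- `q` = the intersection over `ε` of the closed spans of `R (hyp O)`, `diam O ≤ ε` -/
noncomputable def q (inc : Y → Z → Prop) : Submodule ℂ K := G lm J inc Set.univ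

variable {lm J}

theorem good_Qb (inc : Y → Z → Prop) (B : Set Y) (ε : ℝ) : Good (Sx lm J) (Qb lm J inc B ε) :=
  good_sp fun _ => good_R _

theorem good_G (inc : Y → Z → Prop) (B : Set Y) : Good (Sx lm J) (G lm J inc B) :=
  good_iInf fun _ => good_Qb _ _ _

theorem good_q (inc : Y → Z → Prop) : Good (Sx lm J) (q lm J inc) := good_G _ _

theorem Qb_mono {inc : Y → Z → Prop} {B B' : Set Y} (h : B ⊆ B') {ε ε' : ℝ} (hε : ε ≤ ε') :
    Qb lm J inc B ε ≤ Qb lm J inc B' ε' := by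
  refine sp_le (isClosed_sp _) fun O => ?_
  exact le_sp (fun O : {O : Set Y // O ∈ Sm (Y := Y) ε' ∧ (O ∩ B').Nonempty} =>
    R lm J (hyp inc O.1)) ⟨O.1, ⟨O.2.1.1, fun x hx y hy => (O.2.1.2 x hx y hy).trans hε⟩,
      O.2.2.mono (Set.inter_subset_inter_right _ h)⟩

theorem G_le_Qb {inc : Y → Z → Prop} {B : Set Y} {ε : ℝ} (hε : 0 < ε) :
    G lm J inc B ≤ Qb lm J inc B ε :=
  iInf_le (fun ε : {ε : ℝ // 0 < ε} => Qb lm J inc B ε.1) ⟨ε, hε⟩

theorem Qb_anti {J' : Set ι} (h : J' ⊆ J) (inc : Y → Z → Prop) (B : Set Y) (ε : ℝ) :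
    Qb lm J inc B ε ≤ Qb lm J' inc B ε :=
  sp_le (isClosed_sp _) fun O => (R_anti h _).trans
    (le_sp (fun O : {O : Set Y // O ∈ Sm (Y := Y) ε ∧ (O ∩ B).Nonempty} =>
      R lm J' (hyp inc O.1)) O)

theorem G_anti {J' : Set ι} (h : J' ⊆ J) (inc : Y → Z → Prop) (B : Set Y) :
    G lm J inc B ≤ G lm J' inc B :=
  iInf_mono fun _ => Qb_anti h _ _ _

theorem q_anti {J' : Set ι} (h : J' ⊆ J) (inc : Y → Z → Prop) :
    q lm J inc ≤ q lm J' inc := G_anti h _ _

/-- covariance of `G` -/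
theorem G_map {K' : Type*} [NormedAddCommGroup K'] [InnerProductSpace ℂ K'] [CompleteSpace K']
    {Z' : Type*} [TopologicalSpace Z'] [CompactSpace Z']
    {Y' : Type*} [PseudoMetricSpace Y'] [CompactSpace Y]
    [T2Space Y']
    {ι' : Type*} {lm' : ι' → (C(Z', ℂ) →L[ℂ] (K' →L[ℂ] K'))} {J' : Set ι'}
    {inc : Y → Z → Prop} {inc' : Y' → Z' → Prop}
    (U : K →L[ℂ] K') (σ : ι' → ι) (τ : C(Z, Z')) (g : C(Y, Y')) (hσ : ∀ i ∈ J', σ i ∈ J)
    (hU : ∀ i ∈ J', ∀ (f : C(Z', ℂ)) (ξ : K), lm' i f (U ξ) = U (lm (σ i) (f.comp τ) ξ))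
    (hg : ∀ y z, inc y z → inc' (g y) (τ z)) {B : Set Y} {B' : Set Y'}
    (hB : ∀ y ∈ B, g y ∈ B') :
    ∀ ζ ∈ G lm J inc B, U ζ ∈ G lm' J' inc' B' := by
  intro ζ hζ
  rw [G, Submodule.mem_iInf]
  rintro ⟨ε, hε⟩
  have huc := CompactSpace.uniformContinuous_of_continuous g.continuous
  obtain ⟨δ, hδ, hd⟩ := Metric.uniformContinuous_iff.1 huc ε hε
  have hζ' : ζ ∈ Qb lm J inc B (δ / 2) := G_le_Qb (by positivity) hζ
  refine map_sp (isClosed_sp _) U (fun O v hv => ?_) ζ hζ'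
  have hO : g '' O.1 ∈ Sm (Y := Y') ε ∧ (g '' O.1 ∩ B').Nonempty := by
    refine ⟨⟨?_, ?_⟩, ?_⟩
    · exact (O.2.1.1.isCompact.image g.continuous).isClosed
    · rintro _ ⟨x, hx, rfl⟩ _ ⟨y, hy, rfl⟩
      exact (hd (lt_of_le_of_lt (O.2.1.2 x hx y hy) (by linarith))).le
    · obtain ⟨y, hy, hyB⟩ := O.2.2
      exact ⟨g y, ⟨y, hy, rfl⟩, hB y hyB⟩
  refine le_sp (fun O : {O : Set Y' // O ∈ Sm (Y := Y') ε ∧ (O ∩ B').Nonempty} =>
    R lm' J' (hyp inc' O.1)) ⟨_, hO⟩ ?_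
  refine R_map U σ τ hσ hU ?_ v hv
  rintro z ⟨y, hy, e⟩
  exact ⟨g y, ⟨y, hy, rfl⟩, hg y z e⟩

theorem q_map {K' : Type*} [NormedAddCommGroup K'] [InnerProductSpace ℂ K'] [CompleteSpace K']
    {Z' : Type*} [TopologicalSpace Z'] [CompactSpace Z']
    {Y' : Type*} [PseudoMetricSpace Y'] [CompactSpace Y]
    [T2Space Y']
    {ι' : Type*} {lm' : ι' → (C(Z', ℂ) →L[ℂ] (K' →L[ℂ] K'))} {J' : Set ι'}
    {inc : Y → Z → Prop} {inc' : Y' → Z' → Prop}
    (U : K →L[ℂ] K') (σ : ι' → ι) (τ : C(Z, Z')) (g : C(Y, Y')) (hσ : ∀ i ∈ J', σ i ∈ J)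
    (hU : ∀ i ∈ J', ∀ (f : C(Z', ℂ)) (ξ : K), lm' i f (U ξ) = U (lm (σ i) (f.comp τ) ξ))
    (hg : ∀ y z, inc y z → inc' (g y) (τ z)) :
    ∀ ζ ∈ q lm J inc, U ζ ∈ q lm' J' inc' :=
  G_map U σ τ g hσ hU hg fun _ _ => trivial

/-! ### Projections -/

section general

variable [T2Space Z] {J' : Set ι}

theorem cpv (hs : Str lm) (h1 : ∀ i, lm i 1 = 1) (hJ : J.Nonempty) :
    H560.CPV (fun C : Set Z => pj (R lm J C)) := by
  refine ⟨fun C _ => pj_adj _, fun C D hC hD => ?_, ?_, ?_⟩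
  · rw [pj_inf (R_closed C) (R_closed D)
      (Good.comm (Sx_star hs) (good_R C) (good_R D)), R_inter hC hD]
  · rw [R_univ, pj_top]
  · rw [R_empty h1 hJ, pj_bot]

theorem pj_R_le (h : J' ⊆ J) (C : Set Z) :
    pj (R lm J' C) * pj (R lm J C) = pj (R lm J C) := by
  ext x
  exact pj_self (R_anti h C (pj_mem (R_closed C) x))

theorem commute_R (hs : Str lm) (h : J' ⊆ J) (C D : Set Z) :
    Commute (pj (R lm J C)) (pj (R lm J' D)) :=
  Good.comm₂ (Sx_star hs) (Sx_star hs) (Sx_mono h) (good_R C) (good_R D)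

/-- `T` commuting with all `lm i f`, `i ∈ J`, commutes with the projections -/
theorem commute_pj_R (hs : Str lm) {T : K →L[ℂ] K} (hT : ∀ i ∈ J, ∀ f, T * lm i f = lm i f * T)
    (C : Set Z) : Commute T (pj (R lm J C)) := by
  refine ((good_R C).pj_comm_c (Sx_star hs) (b := T) ?_).symm
  rintro _ ⟨i, hi, f, rfl⟩
  exact hT i hi f

theorem lm_commute_pj_R (hs : Str lm) {i : ι} (hi : i ∈ J) (f : C(Z, ℂ)) (C : Set Z) :
    Commute (lm i f) (pj (R lm J C)) :=
  ((good_R C).pj_comm_S (Sx_star hs) _ (mem_Sx hi f)).symm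

variable {Y : Type*} [MetricSpace Y]

theorem hat_eq (I : Y → Z → Prop) (O : Set Y) : H560.hat I O = hyp I O := rfl

/-- `NN` is the orthogonal complement of `Qb` -/
theorem mem_NN_iff (h1 : ∀ i, lm i 1 = 1) (hJ : J.Nonempty) (I : Y → Z → Prop) (ε : ℝ) (ζ : K) :
    ζ ∈ H560.NN (fun C : Set Z => pj (R lm J C)) I ε ↔ ζ ∈ (Qb lm J I Set.univ ε)ᗮ := by
  rw [H560.mem_NN, Submodule.mem_orthogonal]
  constructor
  · intro h u hu
    have key : ∀ v ∈ Qb lm J I Set.univ ε, ⟪ζ, v⟫_ℂ = 0 := by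
      intro v hv
      have := map_sp (W := (⊥ : Submodule ℂ ℂ)) (by rw [Submodule.bot_coe]; exact isClosed_singleton)
        (innerSL ℂ ζ) (V := fun O : {O : Set Y // O ∈ Sm (Y := Y) ε ∧ (O ∩ Set.univ).Nonempty} =>
          R lm J (hyp I O.1)) (fun O w hw => ?_) v hv
      · exact (Submodule.mem_bot ℂ).1 this
      · rw [Submodule.mem_bot]
        change ⟪ζ, w⟫_ℂ = 0
        have e : pj (R lm J (hyp I O.1)) ζ = 0 := h O.1 O.2.1
        rw [← pj_self hw, ← pj_symm, e, inner_zero_left]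
    have := key u hu
    rw [← inner_conj_symm, this, map_zero]
  · intro h O hO
    rcases O.eq_empty_or_nonempty with rfl | hne
    · have : H560.hat I ∅ = ∅ := by
        ext z; simp [H560.hat]
      change pj (R lm J (H560.hat I ∅)) ζ = 0
      rw [this, R_empty h1 hJ, pj_bot]; rfl
    · have hm : ∀ w ∈ R lm J (hyp I O), w ∈ Qb lm J I Set.univ ε := by
        intro w hw
        exact le_sp (fun O : {O : Set Y // O ∈ Sm (Y := Y) ε ∧ (O ∩ Set.univ).Nonempty} =>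
          R lm J (hyp I O.1)) ⟨O, hO, by rwa [Set.inter_univ]⟩ hw
      change pj (R lm J (hyp I O)) ζ = 0
      have h1 := h _ (hm _ (pj_mem (R_closed _) ζ))
      have h2 : ⟪pj (R lm J (hyp I O)) ζ, pj (R lm J (hyp I O)) ζ⟫_ℂ = 0 := by
        rw [← pj_symm, pj_self (pj_mem (R_closed _) ζ)]
        exact h1
      exact inner_self_eq_zero.1 h2

theorem isClosed_Qb (I : Y → Z → Prop) (B : Set Y) (ε : ℝ) :
    IsClosed (Qb lm J I B ε : Set K) := isClosed_sp _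

theorem full_of_top (h1 : ∀ i, lm i 1 = 1) (hJ : J.Nonempty) {I : Y → Z → Prop}
    (h : q lm J I = ⊤) : H560.Full (fun C : Set Z => pj (R lm J C)) I := by
  intro ε hε
  rw [eq_bot_iff]
  intro ζ hζ
  rw [mem_NN_iff h1 hJ] at hζ
  have h1 : Qb lm J I Set.univ ε = ⊤ := by
    rw [eq_top_iff, ← h]
    exact G_le_Qb hε
  rw [h1, Submodule.top_orthogonal_eq_bot] at hζ
  exact hζ

theorem top_of_full (h1 : ∀ i, lm i 1 = 1) (hJ : J.Nonempty) {I : Y → Z → Prop}
    (h : H560.Full (fun C : Set Z => pj (R lm J C)) I) : q lm J I = ⊤ := by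
  rw [eq_top_iff]
  unfold q G
  refine le_iInf fun ε => ?_
  have h1' := h ε.1 ε.2
  have h2 : (Qb lm J I Set.univ ε.1)ᗮ = ⊥ := by
    rw [eq_bot_iff, ← h1']
    intro ζ hζ
    rwa [mem_NN_iff h1 hJ]
  rw [eq_top_of_orth (isClosed_Qb _ _ _) h2]

theorem null_of_bot (h1 : ∀ i, lm i 1 = 1) (hJ : J.Nonempty) {I : Y → Z → Prop}
    (h : q lm J I = ⊥) : H560.Null (fun C : Set Z => pj (R lm J C)) I := by
  intro ζ κ hκ
  set V : {ε : ℝ // 0 < ε} → Submodule ℂ K := fun ε => (Qb lm J I Set.univ ε.1)ᗮ with hV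
  have hd : Directed (· ≤ ·) V := by
    intro a b
    refine ⟨⟨min a.1 b.1, lt_min a.2 b.2⟩, ?_, ?_⟩
    · exact Submodule.orthogonal_le (Qb_mono subset_rfl (min_le_left _ _))
    · exact Submodule.orthogonal_le (Qb_mono subset_rfl (min_le_right _ _))
  have : Nonempty {ε : ℝ // 0 < ε} := ⟨⟨1, one_pos⟩⟩
  have htop : (⨆ ε, V ε).topologicalClosure = ⊤ := by
    rw [Submodule.topologicalClosure_eq_top_iff, ← Submodule.iInf_orthogonal]
    rw [eq_bot_iff, ← h]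
    unfold q G
    refine le_iInf fun ε => (iInf_le _ ε).trans ?_
    have : ((Qb lm J I Set.univ ε.1)ᗮ)ᗮ = (Qb lm J I Set.univ ε.1).topologicalClosure :=
      Submodule.orthogonal_orthogonal_eq_closure _
    rw [hV]
    change ((Qb lm J I Set.univ ε.1)ᗮ)ᗮ ≤ _
    rw [this, cl_eq (isClosed_Qb _ _ _)]
  have hmem : ζ ∈ closure ((⨆ ε, V ε : Submodule ℂ K) : Set K) := by
    have : ζ ∈ (⨆ ε, V ε).topologicalClosure := htop ▸ trivial
    exact this
  obtain ⟨ζ', hζ', hlt⟩ := Metric.mem_closure_iff.1 hmem κ hκ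
  obtain ⟨ε, hε⟩ := (Submodule.mem_iSup_of_directed V hd).1 hζ'
  refine ⟨ε.1, ε.2, ζ', (mem_NN_iff h1 hJ I ε.1 ζ').2 hε, ?_⟩
  rw [← dist_eq_norm]
  exact hlt.le

end general

end Vale.Agent.P092.H766.P2
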