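import Vale.Agent.P092.H766.P2Defs

/-!
P092, TEAM P, stage 2 (helper766): the rank count of `P2Defs` without the two conditions which are
only used for (AGR) (transitivity on pairs, zero-one law for pairs). In use: the REVERSED source
(`S e` = singular subspaces of dimension `e`, letters indexed by the maximal ones).
-/

set_option linter.all false

open scoped Topology
open ContinuousLinearMap

namespace Vale.Agent.P092.H766.P3

open Vale.Agent.P092.H618 (TGeo Nin)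
open Vale.Agent.P092.H766.P2 (PGeo Opp Wd)

/-- geometry of the source -/
structure SGeo0 (N : ℕ) (S : ℕ → Type) (R : ∀ i j, S i → S j → Prop) (H : Type) [Group H]
    [∀ j, MulAction H (S j)] : Prop where
  refl : ∀ i (X X' : S i), R i i X X' ↔ X = X'
  trans : ∀ i j l X Y Z, R i j X Y → R j l Y Z → R i l X Z
  pnt : ∀ j, 1 ≤ j → j ≤ N → ∀ X : S j, ∃ c : S 1, R 1 j c X
  hyp : ∀ j, 1 ≤ j → j ≤ N → ∀ X : S j, ∃ M : S N, R j N X M
  act : ∀ (g : H) i j X X', R i j X X' → R i j (g • X) (g • X')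
  tra : ∀ j, 1 ≤ j → j ≤ N → ∀ X X' : S j, ∃ g : H, g • X = X'
  con : ∀ j, 1 ≤ j → j < N → ∀ X X' : S j,
    Relation.ReflTransGen (fun A B : S j => ∃ Z : S (j + 1), R j (j + 1) A Z ∧ R j (j + 1) B Z) X X'

section

variable {K : Type} [NormedAddCommGroup K] [InnerProductSpace ℂ K] [CompleteSpace K]

/-- all data of the rank count -/
structure PkD0 (N : ℕ) {Y : ℕ → Type} [∀ d, MetricSpace (Y d)] [∀ d, CompactSpace (Y d)]
    (I : ∀ i j, Y i → Y j → Prop) (Perp : Y N → Y N → Prop) {S : ℕ → Type}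
    (R : ∀ i j, S i → S j → Prop)
    (Γ H : Type) [Group Γ] [Group H] [∀ d, MulAction Γ (Y d)]
    [∀ d, ContinuousConstSMul Γ (Y d)] [∀ j, MulAction H (S j)]
    (lamG : Γ →* (K →L[ℂ] K)) (π : H →* (K →L[ℂ] K)) (W : Set (K →L[ℂ] K))
    {A : Type} (E : A → S N → (C(Y N, ℂ) →L[ℂ] (K →L[ℂ] K))) : Prop where
  hN : 1 ≤ N
  tgeo : TGeo N Y I
  pgeo : PGeo N Y I Perp
  sgeo : SGeo0 N S R H
  /-- `Γ` preserves incidence in the target -/
  gI : ∀ (γ : Γ) i j L L', I i j L L' → I i j (γ • L) (γ • L')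
  uG : ∀ γ, adjoint (lamG γ) = lamG γ⁻¹
  uπ : ∀ g, adjoint (π g) = π g⁻¹
  sW : ∀ w ∈ W, adjoint w ∈ W
  /-- the letters are unital and `*`-preserving -/
  one : ∀ a x, E a x 1 = 1
  str : ∀ a x f, E a x (star f) = adjoint (E a x f)
  /-- covariance -/
  covG : ∀ γ a x f, lamG γ * E a x f * lamG γ⁻¹ =
    E a x (f.comp ⟨fun y => γ⁻¹ • y, continuous_const_smul γ⁻¹⟩)
  covπ : ∀ g a x f, π g * E a x f * π g⁻¹ = E a (g • x) f
  covW : ∀ w ∈ W, ∀ a x f, w * E a x f = E a x f * w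
  /-- zero-one law for the stabiliser of a subspace (Howe-Moore) -/
  zo : ∀ j, 1 ≤ j → j ≤ N → ∀ X : S j, ∀ P : K →L[ℂ] K, adjoint P = P → P * P = P →
    (∀ γ, P * lamG γ = lamG γ * P) → (∀ w ∈ W, P * w = w * P) →
    (∀ g : H, g • X = X → P * π g = π g * P) → P = 0 ∨ P = 1
  /-- no invariant calculus -/
  noinv : ∀ d, 1 ≤ d → d ≤ N → ∀ G : C(Y d, ℂ) →⋆ₐ[ℂ] (K →L[ℂ] K),
    (∀ g f, π g * G f = G f * π g) → (∀ w ∈ W, ∀ f, w * G f = G f * w) →
    (∀ γ f, lamG γ * G f * lamG γ⁻¹ =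
      G (f.comp ⟨fun y => γ⁻¹ • y, continuous_const_smul γ⁻¹⟩)) → False
  /-- the word lemma: opposite letters of points of a maximal singular source subspace `c` -/
  w0 : ∀ c : S 1, ∀ T ∈ Wd (Y := Y) R E c, ∀ a x b x', R 1 N c x → R 1 N c x' →
    ∀ u h, Opp Perp u h → E a x u * T * E b x' h = 0

/-- the output of the rank count: calculi of all singular subspaces of the source -/
structure PkOut0 (N : ℕ) {Y : ℕ → Type} [∀ d, MetricSpace (Y d)] [∀ d, CompactSpace (Y d)]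
    (I : ∀ i j, Y i → Y j → Prop) {S : ℕ → Type} (R : ∀ i j, S i → S j → Prop)
    (Γ H : Type) [Group Γ] [Group H] [∀ d, MulAction Γ (Y d)]
    [∀ d, ContinuousConstSMul Γ (Y d)] [∀ j, MulAction H (S j)]
    (lamG : Γ →* (K →L[ℂ] K)) (π : H →* (K →L[ℂ] K)) (W : Set (K →L[ℂ] K))
    {A : Type} (E : A → S N → (C(Y N, ℂ) →L[ℂ] (K →L[ℂ] K)))
    (G : ∀ j, S j → (C(Y j, ℂ) →⋆ₐ[ℂ] (K →L[ℂ] K))) : Prop where
  /-- the letters are multiplicative and do not depend on `a` -/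
  top : ∀ a (x : S N) f, G N x f = E a x f
  /-- central in the von Neumann algebra generated by the letters of `X` -/
  cen : ∀ j, 1 ≤ j → j ≤ N → ∀ X : S j, ∀ T : K →L[ℂ] K,
    (∀ a x f, R j N X x → T * E a x f = E a x f * T) → ∀ f, T * G j X f = G j X f * T
  com : ∀ i j, 1 ≤ i → i ≤ j → j ≤ N → ∀ (X : S i) (X' : S j), R i j X X' → ∀ f f',
    Commute (G i X f) (G j X' f')
  inc : ∀ i j, 1 ≤ i → i ≤ j → j ≤ N → ∀ (X : S i) (X' : S j), R i j X X' → ∀ u h,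
    Nin (I i j) u h → G i X u * G j X' h = 0
  covG : ∀ j, 1 ≤ j → j ≤ N → ∀ (X : S j) γ f, lamG γ * G j X f * lamG γ⁻¹ =
    G j X (f.comp ⟨fun y => γ⁻¹ • y, continuous_const_smul γ⁻¹⟩)
  covπ : ∀ j, 1 ≤ j → j ≤ N → ∀ (X : S j) g f, π g * G j X f * π g⁻¹ = G j (g • X) f
  covW : ∀ j, 1 ≤ j → j ≤ N → ∀ (X : S j), ∀ w ∈ W, ∀ f, w * G j X f = G j X f * w

end

end Vale.Agent.P092.H766.P3
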