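import Vale.Agent.P092.H766.P3Q

/-!
P092, TEAM P, [P2-RK] (helper766), part 4: the calculi of all subspaces of a fixed dimension,
covariance, comparison, incidence (H560/Rk4 for the letters of `PkD0`).
-/

set_option linter.all false

open scoped InnerProductSpace
open Set Filter Topology ContinuousLinearMap

namespace Vale.Agent.P092.H766.P3

open Vale.Agent.P092.H766.P2

open Vale.Agent.P092.H618 (Nin)
open Vale.Agent.P092.H729.Rk (pj)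
open Vale.Agent.P092.H560 (CPV hat Full Null LOC Calc LocH Nxt exists_nxt pj_conj conj_apply
  calc_unique calc_eq calc_inc calc_beta isClosed_hat AA Part Strong Sm)

variable {K : Type} [NormedAddCommGroup K] [InnerProductSpace ℂ K] [CompleteSpace K] {N : ℕ}
  {Y : ℕ → Type} [∀ d, MetricSpace (Y d)] [∀ d, CompactSpace (Y d)]
  {I : ∀ i j, Y i → Y j → Prop} {Perp : Y N → Y N → Prop}
  {S : ℕ → Type} {R' : ∀ i j, S i → S j → Prop}
  {Γ H : Type} [Group Γ] [Group H] [∀ d, MulAction Γ (Y d)]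
  [∀ d, ContinuousConstSMul Γ (Y d)] [∀ j, MulAction H (S j)]
  {lamG : Γ →* (K →L[ℂ] K)} {π : H →* (K →L[ℂ] K)} {W : Set (K →L[ℂ] K)}
  {A : Type} [Nonempty A] {E : A → S N → (C(Y N, ℂ) →L[ℂ] (K →L[ℂ] K))}

theorem pX_cpv (D : PkD0 N I Perp R' Γ H lamG π W E) {j : ℕ} (h1 : 1 ≤ j) (hj : j ≤ N)
    (X : S j) : CPV (pX E R' X) := cpv (hs D) (P3.h1 D) (JX_nonempty D h1 hj X)

theorem pX_le (D : PkD0 N I Perp R' Γ H lamG π W E) {i j : ℕ} {X : S i} {X' : S j}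
    (h : R' i j X X') (C : Set (Y N)) : pX E R' X' C * pX E R' X C = pX E R' X C :=
  pj_R_le (JX_anti D h) C

theorem pX_comm (D : PkD0 N I Perp R' Γ H lamG π W E) {i j : ℕ} {X : S i} {X' : S j}
    (h : R' i j X X') (C E' : Set (Y N)) : Commute (pX E R' X C) (pX E R' X' E') :=
  commute_R (hs D) (JX_anti D h) C E'

theorem pX_pi (D : PkD0 N I Perp R' Γ H lamG π W E) (g : H) {j : ℕ} (X : S j)
    (C : Set (Y N)) : pX E R' (g • X) C = π g * pX E R' X C * π g⁻¹ := by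
  refine pj_conj (R_closed _) (R_closed _)
    (by rw [← map_mul, mul_inv_cancel, map_one]) (by rw [← map_mul, inv_mul_cancel, map_one])
    (D.uπ g) (R_pi D g X C) fun v hv => ?_
  have := R_pi D g⁻¹ (g • X) C v hv
  rwa [inv_smul_smul] at this

theorem pX_gam (D : PkD0 N I Perp R' Γ H lamG π W E) (γ : Γ) {j : ℕ} (X : S j)
    (C : Set (Y N)) :
    pX E R' X C = lamG γ * pX E R' X (Homeomorph.smul γ ⁻¹' C) * lamG γ⁻¹ := by
  refine pj_conj (R_closed _) (R_closed _)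
    (by rw [← map_mul, mul_inv_cancel, map_one]) (by rw [← map_mul, inv_mul_cancel, map_one])
    (D.uG γ) (R_gam D γ X fun z hz => hz) (R_gam D γ⁻¹ X fun z hz => ?_)
  change γ • γ⁻¹ • z ∈ C
  rwa [smul_inv_smul]

/-- The dimension of the value of the `j`-spaces is `d`. -/
def Lvl (E : A → S N → (C(Y N, ℂ) →L[ℂ] (K →L[ℂ] K))) (R' : ∀ i j, S i → S j → Prop)
    (I : ∀ i j, Y i → Y j → Prop) (j d : ℕ) : Prop :=
  1 ≤ d ∧ d ≤ N ∧ ∀ X : S j, Full (pX E R' X) (I d N) ∧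
    (d < N → Null (pX E R' X) (I (d + 1) N))

theorem Lvl.nxt (hg : LocH N I) (D : PkD0 N I Perp R' Γ H lamG π W E) {j d : ℕ} (h1 : 1 ≤ j)
    (hj : j ≤ N) (h : Lvl E R' I j d) (X : S j) :
    ∃ (Y₁ : Type) (_ : MetricSpace Y₁) (_ : CompactSpace Y₁) (I₁ : Y₁ → Y N → Prop),
      Nxt (pX E R' X) I d I₁ :=
  exists_nxt hg _ (pX_cpv D h1 hj X).empty h.1 h.2.1 (h.2.2 X).2

theorem Lvl.exists_calc (hg : LocH N I) (D : PkD0 N I Perp R' Γ H lamG π W E) {j d : ℕ}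
    (h1 : 1 ≤ j) (hj : j ≤ N) (h : Lvl E R' I j d) :
    ∃ F : S j → (C(Y d, ℂ) →⋆ₐ[ℂ] (K →L[ℂ] K)), ∀ X, Calc (pX E R' X) (I d N) (F X) := by
  have : ∀ X : S j, ∃ G : C(Y d, ℂ) →⋆ₐ[ℂ] (K →L[ℂ] K), Calc (pX E R' X) (I d N) G := by
    intro X
    obtain ⟨Y₁, _, _, I₁, hn⟩ := h.nxt hg D h1 hj X
    exact Vale.Agent.P092.H560.exists_calc (pX_cpv D h1 hj X) (hg.cl d) hn.cl hn.loc (h.2.2 X).1 hn.null
  choose F hF using this
  exact ⟨F, hF⟩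

theorem Lvl.unique (hg : LocH N I) (D : PkD0 N I Perp R' Γ H lamG π W E) {j d : ℕ}
    (h1 : 1 ≤ j) (hj : j ≤ N) (h : Lvl E R' I j d) {X : S j}
    {G G' : C(Y d, ℂ) →⋆ₐ[ℂ] (K →L[ℂ] K)} (hG : Calc (pX E R' X) (I d N) G)
    (hG' : Calc (pX E R' X) (I d N) G') : ∀ f, G f = G' f := by
  obtain ⟨Y₁, _, _, I₁, hn⟩ := h.nxt hg D h1 hj X
  exact calc_unique (pX_cpv D h1 hj X) (hg.cl d) hn.cl hn.loc hn.null hG hG'

/-- comparison -/
theorem Lvl.eq_of_le (hg : LocH N I) (D : PkD0 N I Perp R' Γ H lamG π W E) {i j d : ℕ}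
    (h1 : 1 ≤ j) (hj : j ≤ N) (h : Lvl E R' I j d) {X : S i} {X' : S j} (hX : R' i j X X')
    {G G' : C(Y d, ℂ) →⋆ₐ[ℂ] (K →L[ℂ] K)} (hG : Calc (pX E R' X) (I d N) G)
    (hG' : Calc (pX E R' X') (I d N) G') : ∀ f, G f = G' f := by
  obtain ⟨Y₁, _, _, I₁, hn⟩ := h.nxt hg D h1 hj X'
  exact calc_eq (pX_cpv D h1 hj X') (hg.cl d) hn.cl hn.loc hn.null (fun C _ => pX_le D hX C)
    (fun C E' _ _ => pX_comm D hX C E') hG hG'

section cov

variable {j d : ℕ} {F : S j → (C(Y d, ℂ) →⋆ₐ[ℂ] (K →L[ℂ] K))}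

theorem fam_cen (D : PkD0 N I Perp R' Γ H lamG π W E) {X : S j} (hF : Calc (pX E R' X) (I d N) (F X)) {T : K →L[ℂ] K}
    (hT : ∀ a x f, R' j N X x → T * E a x f = E a x f * T) (f : C(Y d, ℂ)) :
    T * F X f = F X f * T :=
  hF.cm T (fun C _ => commute_pj_R (hs D) (fun q hq f => hT q.1 q.2 f hq) C) f

theorem fam_covW (D : PkD0 N I Perp R' Γ H lamG π W E) {X : S j}
    (hF : Calc (pX E R' X) (I d N) (F X)) {w : K →L[ℂ] K} (hw : w ∈ W) (f : C(Y d, ℂ)) :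
    w * F X f = F X f * w :=
  fam_cen D hF (fun a x f _ => D.covW w hw a x f) f

theorem fam_covG (hg : LocH N I) (D : PkD0 N I Perp R' Γ H lamG π W E) (h1 : 1 ≤ j)
    (hj : j ≤ N) (h : Lvl E R' I j d) {X : S j} (hF : Calc (pX E R' X) (I d N) (F X)) (γ : Γ)
    (f : C(Y d, ℂ)) : lamG γ * F X f * lamG γ⁻¹ =
      F X (f.comp ⟨fun y => γ⁻¹ • y, continuous_const_smul γ⁻¹⟩) := by
  have hc := hF.map (p' := pX E R' X) (hg.cl d) (lamG γ) (lamG γ⁻¹)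
    (by rw [← map_mul, mul_inv_cancel, map_one]) (by rw [← map_mul, inv_mul_cancel, map_one])
    (D.uG γ) ⟨fun y => γ • y, continuous_const_smul γ⟩ (Homeomorph.smul γ)
    (fun C _ => pX_gam D γ X C) (fun y z hyz => D.gI γ d N y z hyz) (fun y z hyz => by
      have := D.gI γ⁻¹ d N _ _ hyz
      have e1 : γ⁻¹ • (γ • y) = y := inv_smul_smul γ y
      have e2 : γ⁻¹ • (γ • z) = z := inv_smul_smul γ z
      change I d N (γ⁻¹ • (γ • y)) (γ⁻¹ • (γ • z)) at this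
      rwa [e1, e2] at this)
  have h2 := h.unique hg D h1 hj hc hF (f.comp ⟨fun y => γ⁻¹ • y, continuous_const_smul γ⁻¹⟩)
  rw [conj_apply] at h2
  rw [← h2]
  congr 3
  ext y
  change f y = f (γ⁻¹ • γ • y)
  rw [inv_smul_smul]

theorem fam_covP (hg : LocH N I) (D : PkD0 N I Perp R' Γ H lamG π W E) (h1 : 1 ≤ j)
    (hj : j ≤ N) (h : Lvl E R' I j d) (hF : ∀ X, Calc (pX E R' X) (I d N) (F X)) (X : S j)
    (g : H) (f : C(Y d, ℂ)) : π g * F X f * π g⁻¹ = F (g • X) f := by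
  have hc := (hF X).map (p' := pX E R' (g • X)) (hg.cl d) (π g) (π g⁻¹)
    (by rw [← map_mul, mul_inv_cancel, map_one]) (by rw [← map_mul, inv_mul_cancel, map_one])
    (D.uπ g) (ContinuousMap.id _) (Homeomorph.refl _)
    (fun C _ => pX_pi D g X C) (fun y z hyz => hyz) (fun y z hyz => hyz)
  have h2 := h.unique hg D h1 hj hc (hF (g • X)) f
  rw [conj_apply, ContinuousMap.comp_id] at h2
  exact h2

end cov

/-- nested calculi commute -/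
theorem fam_com (D : PkD0 N I Perp R' Γ H lamG π W E) {i j a b : ℕ} {X : S i} {X' : S j}
    (hX : R' i j X X') {G : C(Y a, ℂ) →⋆ₐ[ℂ] (K →L[ℂ] K)} {G' : C(Y b, ℂ) →⋆ₐ[ℂ] (K →L[ℂ] K)}
    (hG : Calc (pX E R' X) (I a N) G) (hG' : Calc (pX E R' X') (I b N) G') (f f') :
    Commute (G f) (G' f') :=
  hG'.cm _ (fun C _ => (hG.cm _ (fun E' _ => (pX_comm D hX E' C).symm) f).symm) f'

theorem fam_inc (hg : LocH N I) (D : PkD0 N I Perp R' Γ H lamG π W E) {i j a b : ℕ}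
    (hj1 : 1 ≤ j) (hj : j ≤ N) (ha : 1 ≤ a) (hab : a ≤ b) (h : Lvl E R' I j b)
    {X : S i} {X' : S j} (hX : R' i j X X') {G : C(Y a, ℂ) →⋆ₐ[ℂ] (K →L[ℂ] K)}
    {G' : C(Y b, ℂ) →⋆ₐ[ℂ] (K →L[ℂ] K)} (hG : Calc (pX E R' X) (I a N) G)
    (hG' : Calc (pX E R' X') (I b N) G') (u v) (hn : Nin (I a b) u v) : G u * G' v = 0 := by
  obtain ⟨Y₁, _, _, I₁, hx⟩ := h.nxt hg D hj1 hj X'
  exact calc_inc (pX_cpv D hj1 hj X') (hg.cl a) (hg.cl b) hx.cl (fun C _ => pX_le D hX C)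
    (fun C E' _ _ => pX_comm D hX C E') hx.null hG hG' u v (hx.inc a ha hab u v hn)

end Vale.Agent.P092.H766.P3
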