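import Vale.Agent.P092.H766.P3Fam

/-!
P092, TEAM P, **[P2-RK]** (helper766): the rank count `D_j = j` for polar spaces (board #6308 (2))
and the output `PkOut0`; `pkStmt : PkStmt`.
-/

set_option linter.all false

open scoped InnerProductSpace
open Set Filter Topology ContinuousLinearMap

namespace Vale.Agent.P092.H766.P3

open Vale.Agent.P092.H766.P2

open Vale.Agent.P092.H618 (Nin TGeo)
open Vale.Agent.P092.H729.Rk (pj)
open Vale.Agent.P092.H560 (CPV hat Full Null LOC Calc LocH Nxt exists_nxt pj_conj conj_apply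
  calc_unique calc_eq calc_inc calc_beta isClosed_hat AA AA_apply Part Strong Sm Orth)

variable {K : Type} [NormedAddCommGroup K] [InnerProductSpace ℂ K] [CompleteSpace K] {N : ℕ}
  {Y : ℕ → Type} [∀ d, MetricSpace (Y d)] [∀ d, CompactSpace (Y d)]
  {I : ∀ i j, Y i → Y j → Prop} {Perp : Y N → Y N → Prop}
  {S : ℕ → Type} {R' : ∀ i j, S i → S j → Prop}
  {Γ H : Type} [Group Γ] [Group H] [∀ d, MulAction Γ (Y d)]
  [∀ d, ContinuousConstSMul Γ (Y d)] [∀ j, MulAction H (S j)]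
  {lamG : Γ →* (K →L[ℂ] K)} {π : H →* (K →L[ℂ] K)} {W : Set (K →L[ℂ] K)}
  {A : Type} [Nonempty A] {E : A → S N → (C(Y N, ℂ) →L[ℂ] (K →L[ℂ] K))}

/-- **the letters of a point are its calculus** -/
theorem calc_top (D : PkD0 N I Perp R' Γ H lamG π W E)
    (hI : ∀ z z' : Y N, I N N z z' ↔ z = z') (a : A) (x : S N)
    {G : C(Y N, ℂ) →⋆ₐ[ℂ] (K →L[ℂ] K)} (hG : Calc (pX E R' x) (I N N) G) (f : C(Y N, ℂ)) :
    G f = E a x f := by
  have hx : R' N N x x := (D.sgeo.refl N x x).2 rfl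
  have hat1 : ∀ O : Set (Y N), hat (I N N) O = O := by
    intro O
    ext z
    constructor
    · rintro ⟨y, hy, hyz⟩
      rwa [← (hI _ _).1 hyz]
    · intro hz
      exact ⟨z, hz, (hI _ _).2 rfl⟩
  have hf : UniformContinuous f := CompactSpace.uniformContinuous_of_continuous f.continuous
  ext ζ
  rw [← sub_eq_zero]
  refine Vale.Agent.P092.H560.eq_zero_of_norm_le (1 + 2 * ‖E a x‖ * ‖ζ‖) fun κ hκ => ?_
  obtain ⟨r, hr, hfr⟩ := Metric.uniformContinuous_iff.1 hf κ hκ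
  obtain ⟨M, e, y, hP, hS, hd⟩ := hG.ap f ζ κ hκ (r / 2) (by linarith)
  have hcom : ∀ i g, Commute (E a x g) (e i) := fun i g =>
    hS i _ fun C hC => lm_commute_pj_R (lm := lt E) (i := (a, x)) (hs D) hx g C
  have hpc : ∀ i, ∃ v : K, ‖v‖ ≤ (2 * κ * ‖E a x‖) * ‖e i ζ‖ ∧
      E a x f (e i ζ) - f (y i) • e i ζ = e i v := by
    intro i
    obtain ⟨O, hO, hyO, he⟩ := hP.le i
    rw [hat1] at he
    have hmem : e i ζ ∈ R (lt E) (JX (N := N) A R' x) O := by
      have h2 : pX E R' x O (e i ζ) = e i ζ := congrArg (fun T : K →L[ℂ] K => T ζ) he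
      rw [← h2]
      exact Vale.Agent.P092.H729.Rk.pj_mem (R_closed O) _
    obtain ⟨h, hh1, hh2⟩ := exists_small (f - ContinuousMap.const (Y N) (f (y i))) hO.1 hκ (by
      intro z hz
      change ‖f z - f (y i)‖ ≤ κ
      rw [← dist_eq_norm]
      exact (hfr (lt_of_le_of_lt (hO.2 z hz _ hyO) (by linarith))).le)
    have e1 : E a x f (e i ζ) - f (y i) • e i ζ = E a x h (e i ζ) := by
      have e2 : E a x (f - ContinuousMap.const (Y N) (f (y i)) - h) (e i ζ) = 0 := by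
        refine lt_kill hx hmem _ fun z hz => ?_
        change f z - f (y i) - h z = 0
        rw [hh2 z hz]
        change f z - f (y i) - (f z - f (y i)) = 0
        ring
      have e3 : (ContinuousMap.const (Y N) (f (y i)) : C(Y N, ℂ)) = f (y i) • (1 : C(Y N, ℂ)) := by
        ext z; simp
      rw [map_sub, map_sub, e3, map_smul, D.one] at e2
      change E a x f (e i ζ) - f (y i) • (e i ζ) - E a x h (e i ζ) = 0 at e2
      exact sub_eq_zero.1 e2
    refine ⟨E a x h (e i ζ), ?_, ?_⟩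
    · refine ((E a x h).le_opNorm _).trans ?_
      refine mul_le_mul_of_nonneg_right ?_ (norm_nonneg _)
      refine ((E a x).le_opNorm h).trans ?_
      calc ‖E a x‖ * ‖h‖ ≤ ‖E a x‖ * (2 * κ) := mul_le_mul_of_nonneg_left hh1 (norm_nonneg _)
        _ = _ := by ring
    · rw [e1]
      have h5 : E a x h (e i ζ) = e i (E a x h ζ) :=
        congrArg (fun T : K →L[ℂ] K => T ζ) (hcom i h).eq
      have h6 : e i (E a x h (e i ζ)) = e i (E a x h ζ) := by
        rw [h5]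
        exact congrArg (fun T : K →L[ℂ] K => T (E a x h ζ)) (hP.idem i)
      rw [h6, h5]
  choose v hv1 hv2 using hpc
  have hsum : E a x f ζ - AA e y f ζ = ∑ i, e i (v i) := by
    have e1 : E a x f ζ = ∑ i, E a x f (e i ζ) := by
      rw [← map_sum, ← ContinuousLinearMap.sum_apply, hP.sum]; rfl
    rw [e1, AA_apply, ← Finset.sum_sub_distrib]
    exact Finset.sum_congr rfl fun i _ => hv2 i
  have h7 := norm_orth_le hP.toOrth v ζ (by positivity) hv1
  rw [← hsum] at h7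
  have h8 : G f ζ - E a x f ζ = -(AA e y f ζ - G f ζ) - (E a x f ζ - AA e y f ζ) := by abel
  rw [h8]
  have h9 := norm_sub_le (-(AA e y f ζ - G f ζ)) (E a x f ζ - AA e y f ζ)
  rw [norm_neg] at h9
  nlinarith

/-- a constant family of calculi is impossible -/
theorem rk_const (D : PkD0 N I Perp R' Γ H lamG π W E) {d i : ℕ} (h1 : 1 ≤ d) (h2 : d ≤ N)
    {F : S i → (C(Y d, ℂ) →⋆ₐ[ℂ] (K →L[ℂ] K))}
    (covG : ∀ X γ f, lamG γ * F X f * lamG γ⁻¹ =
      F X (f.comp ⟨fun y => γ⁻¹ • y, continuous_const_smul γ⁻¹⟩))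
    (covP : ∀ X g f, π g * F X f * π g⁻¹ = F (g • X) f)
    (covW : ∀ X, ∀ w ∈ W, ∀ f, w * F X f = F X f * w) (X : S i)
    (hc : ∀ g : H, ∀ f, F (g • X) f = F X f) : False := by
  have hp' : ∀ g : H, π g⁻¹ * π g = 1 := fun g => by rw [← map_mul, inv_mul_cancel, map_one]
  refine D.noinv d h1 h2 (F X) (fun g f => ?_) (covW X) (covG X)
  have := covP X g f
  rw [hc] at this
  calc π g * F X f = π g * F X f * (π g⁻¹ * π g) := by rw [hp', mul_one]
    _ = π g * F X f * π g⁻¹ * π g := by simp only [mul_assoc]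
    _ = F X f * π g := by rw [this]

section rank

theorem q_one (D : PkD0 N I Perp R' Γ H lamG π W E) {j : ℕ} (h1 : 1 ≤ j)
    (hj : j ≤ N) (X : S j) : q (lt E) (JX A R' X) (I 1 N) = ⊤ := by
  obtain ⟨c, hc⟩ := D.sgeo.pnt j h1 hj X
  exact q_top_mono D hc (q_pt D c)

theorem DD_spec (D : PkD0 N I Perp R' Γ H lamG π W E) {j : ℕ} (h1 : 1 ≤ j)
    (hj : j ≤ N) (X : S j) : q (lt E) (JX A R' X) (I (DD I R' E X) N) = ⊤ := by
  classical
  exact Nat.findGreatest_spec (P := fun d => q (lt E) (JX A R' X) (I d N) = ⊤) D.hN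
    (q_one D  h1 hj X)

theorem one_le_DD (D : PkD0 N I Perp R' Γ H lamG π W E) {j : ℕ}
    (h1 : 1 ≤ j) (hj : j ≤ N) (X : S j) : 1 ≤ DD I R' E X := by
  classical
  exact Nat.le_findGreatest D.hN (q_one D  h1 hj X)

theorem lvl_DD (D : PkD0 N I Perp R' Γ H lamG π W E) {j : ℕ} (h1 : 1 ≤ j)
    (hj : j ≤ N) (X : S j) : Lvl E R' I j (DD I R' E X) := by
  refine ⟨one_le_DD D  h1 hj X, DD_le X, fun X' => ⟨?_, fun hlt => ?_⟩⟩
  · exact full_of_top (P3.h1 D) (JX_nonempty D h1 hj X')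
      (q_top_all D h1 hj (DD_spec D  h1 hj X) X')
  · rcases q_zo D h1 hj X' (DD I R' E X + 1) with h | h
    · exfalso
      have h2 := le_DD (Nat.succ_le_of_lt hlt) (q_top_all D h1 hj h X)
      omega
    · exact null_of_bot (P3.h1 D) (JX_nonempty D h1 hj X') h

theorem DD_mono (D : PkD0 N I Perp R' Γ H lamG π W E) {i j : ℕ}
    (h1 : 1 ≤ i) (hi : i ≤ N) {X : S i} {X' : S j} (hX : R' i j X X') :
    DD I R' E X ≤ DD I R' E X' :=
  le_DD (DD_le X) (q_top_mono D hX (DD_spec D  h1 hi X))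

theorem DD_tra (D : PkD0 N I Perp R' Γ H lamG π W E) {j : ℕ} (h1 : 1 ≤ j)
    (hj : j ≤ N) (X X' : S j) : DD I R' E X = DD I R' E X' :=
  le_antisymm (le_DD (DD_le X) (q_top_all D h1 hj (DD_spec D  h1 hj X) X'))
    (le_DD (DD_le X') (q_top_all D h1 hj (DD_spec D  h1 hj X') X))

theorem DD_lt (hg : LocH N I) (D : PkD0 N I Perp R' Γ H lamG π W E) 
    {j : ℕ} (h1 : 1 ≤ j) (hj : j < N) {X : S j} {Z : S (j + 1)} (hX : R' j (j + 1) X Z) :
    DD I R' E X < DD I R' E Z := by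
  by_contra hlt
  have he : DD I R' E Z = DD I R' E X :=
    le_antisymm (not_lt.1 hlt) (DD_mono D  h1 hj.le hX)
  have hl := lvl_DD D  h1 hj.le X
  have hl' := lvl_DD D  (by omega) hj Z
  rw [he] at hl'
  obtain ⟨F, hF⟩ := hl.exists_calc hg D h1 hj.le
  obtain ⟨F', hF'⟩ := hl'.exists_calc hg D (by omega) hj
  have step : ∀ A B : S j, (∃ Z : S (j + 1), R' j (j + 1) A Z ∧ R' j (j + 1) B Z) →
      ∀ f, F A f = F B f := by
    rintro A B ⟨Z, hA, hB⟩ f
    rw [hl'.eq_of_le hg D (by omega) hj hA (hF A) (hF' Z) f,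
      hl'.eq_of_le hg D (by omega) hj hB (hF B) (hF' Z) f]
  have all : ∀ A B : S j, ∀ f, F A f = F B f := by
    intro A B f
    have h := D.sgeo.con j h1 hj A B
    induction h with
    | refl => rfl
    | tail _ h ih => rw [ih, step _ _ h f]
  exact rk_const D hl.1 hl.2.1 (fun X γ f => fam_covG hg D h1 hj.le hl (hF X) γ f)
    (fun X g f => fam_covP hg D h1 hj.le hl hF X g f)
    (fun X w hw f => fam_covW D (hF X) hw f) X (fun g f => all _ _ f)

theorem exists_up (hg : LocH N I) (D : PkD0 N I Perp R' Γ H lamG π W E) 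
    {j : ℕ} (h1 : 1 ≤ j) (hj : j < N) (X : S j) : ∃ Z : S (j + 1), R' j (j + 1) X Z := by
  by_contra hno
  have hl := lvl_DD D  h1 hj.le X
  obtain ⟨F, hF⟩ := hl.exists_calc hg D h1 hj.le
  have hX : ∀ X' : S j, X' = X := by
    intro X'
    rcases Relation.ReflTransGen.cases_head (D.sgeo.con j h1 hj X X') with h | ⟨B, hB, _⟩
    · exact h.symm
    · exact absurd ⟨hB.choose, hB.choose_spec.1⟩ hno
  exact rk_const D hl.1 hl.2.1 (fun X γ f => fam_covG hg D h1 hj.le hl (hF X) γ f)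
    (fun X g f => fam_covP hg D h1 hj.le hl hF X g f)
    (fun X w hw f => fam_covW D (hF X) hw f) X (fun g f => by rw [hX (g • X)])

theorem DD_le_self (hg : LocH N I) (D : PkD0 N I Perp R' Γ H lamG π W E)
    : ∀ k j : ℕ, j + k = N → 1 ≤ j → ∀ X : S j, DD I R' E X ≤ j := by
  intro k
  induction k with
  | zero =>
    intro j hjk h1 X
    exact (DD_le X).trans (by omega)
  | succ k ih =>
    intro j hjk h1 X
    obtain ⟨Z, hZ⟩ := exists_up hg D  h1 (by omega) X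
    have h2 := DD_lt hg D  h1 (by omega) hZ
    have h3 := ih (j + 1) (by omega) (by omega) Z
    omega

theorem exists_ge (hg : LocH N I) (D : PkD0 N I Perp R' Γ H lamG π W E) 
    (c : S 1) {j : ℕ} (h1 : 1 ≤ j) : j ≤ N → ∃ X : S j, j ≤ DD I R' E X := by
  induction j, h1 using Nat.le_induction with
  | base => exact fun hj => ⟨c, one_le_DD D  le_rfl hj c⟩
  | succ j h1 ih =>
    intro hj
    obtain ⟨X, hX⟩ := ih (by omega)
    obtain ⟨Z, hZ⟩ := exists_up hg D  h1 (by omega) X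
    have := DD_lt hg D  h1 (by omega) hZ
    exact ⟨Z, by omega⟩

theorem DD_eq (hg : LocH N I) (D : PkD0 N I Perp R' Γ H lamG π W E) 
    {j : ℕ} (h1 : 1 ≤ j) (hj : j ≤ N) (X : S j) : DD I R' E X = j := by
  refine le_antisymm (DD_le_self hg D  (N - j) j (by omega) h1 X) ?_
  obtain ⟨c, _⟩ := D.sgeo.pnt j h1 hj X
  obtain ⟨X', hX'⟩ := exists_ge hg D  c h1 hj
  rwa [DD_tra D  h1 hj X X']

/-- **The rank count.** -/
theorem lvl_self (hg : LocH N I) (D : PkD0 N I Perp R' Γ H lamG π W E) 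
    {j : ℕ} (h1 : 1 ≤ j) (hj : j ≤ N) : Lvl E R' I j j := by
  refine ⟨h1, hj, fun X => ?_⟩
  have := lvl_DD D  h1 hj X
  rw [DD_eq hg D  h1 hj X] at this
  exact this.2.2 X

end rank


/-- **The output of the rank count.** -/
theorem pkOut (hg : LocH N I) (hne : ∀ j, S j → Nonempty (Y j))
    (D : PkD0 N I Perp R' Γ H lamG π W E) :
    ∃ G : ∀ j, S j → (C(Y j, ℂ) →⋆ₐ[ℂ] (K →L[ℂ] K)), PkOut0 N I R' Γ H lamG π W E G := by
  have hex : ∀ j, ∃ F : S j → (C(Y j, ℂ) →⋆ₐ[ℂ] (K →L[ℂ] K)), 1 ≤ j → j ≤ N →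
      ∀ X, Calc (pX E R' X) (I j N) (F X) := by
    intro j
    by_cases h : 1 ≤ j ∧ j ≤ N
    · obtain ⟨F, hF⟩ := (lvl_self hg D h.1 h.2).exists_calc hg D h.1 h.2
      exact ⟨F, fun _ _ => hF⟩
    · refine ⟨fun X => (StarAlgHom.ofId ℂ (K →L[ℂ] K)).comp
        (ContinuousMap.evalStarAlgHom ℂ ℂ (hne j X).some), fun h1 h2 => absurd ⟨h1, h2⟩ h⟩
  choose G hG using hex
  refine ⟨G, ?_, ?_, ?_, ?_, ?_, ?_, ?_⟩
  · intro a x f
    exact calc_top D (fun z z' => D.tgeo.refl N z z') a x (hG N D.hN le_rfl x) f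
  · intro j h1 hj X T hT f
    exact fam_cen D (F := G j) (hG j h1 hj X) (fun a x f hx => hT a x f hx) f
  · intro i j h1 hij hj X X' hX f f'
    exact fam_com D hX (hG i h1 (hij.trans hj) X) (hG j (h1.trans hij) hj X') f f'
  · intro i j h1 hij hj X X' hX u h hn
    exact fam_inc hg D (h1.trans hij) hj h1 hij (lvl_self hg D (h1.trans hij) hj) hX
      (hG i h1 (hij.trans hj) X) (hG j (h1.trans hij) hj X') u h hn
  · intro j h1 hj X γ f
    exact fam_covG hg D h1 hj (lvl_self hg D h1 hj) (hG j h1 hj X) γ f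
  · intro j h1 hj X g f
    exact fam_covP hg D h1 hj (lvl_self hg D h1 hj) (hG j h1 hj) X g f
  · intro j h1 hj X w hw f
    exact fam_covW D (hG j h1 hj X) hw f

end Vale.Agent.P092.H766.P3
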