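import Vale.Agent.P092.H766.P2Main
import Vale.Agent.P092.H766.P3Defs

/-!
P092, TEAM P, [P2-RK] (helper766), part 2: the letters of `PkD0`, covariance, 0-1 law.
-/

set_option linter.all false

namespace Vale.Agent.P092.H766.P3

open Vale.Agent.P092.H766.P2

open scoped InnerProductSpace Topology
open ContinuousLinearMap
open Vale.Agent.P092.H729.Rk (Good pj sp pj_adj pj_idem pj_mem pj_self pj_comm pj_inf pj_top pj_bot
  good_sp good_iInf isClosed_sp sp_le le_sp map_sp hyp Sm hyp_mono isClosed_hyp pj_symm cl_eq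
  eq_top_of_orth exists_bump)

variable {K : Type} [NormedAddCommGroup K] [InnerProductSpace ℂ K] [CompleteSpace K] {N : ℕ}
  {Y : ℕ → Type} [∀ d, MetricSpace (Y d)] [∀ d, CompactSpace (Y d)]
  {I : ∀ i j, Y i → Y j → Prop} {Perp : Y N → Y N → Prop}
  {S : ℕ → Type} {R' : ∀ i j, S i → S j → Prop}
  {Γ H : Type} [Group Γ] [Group H] [∀ d, MulAction Γ (Y d)]
  [∀ d, ContinuousConstSMul Γ (Y d)] [∀ j, MulAction H (S j)]
  {lamG : Γ →* (K →L[ℂ] K)} {π : H →* (K →L[ℂ] K)} {W : Set (K →L[ℂ] K)}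
  {A : Type} {E : A → S N → (C(Y N, ℂ) →L[ℂ] (K →L[ℂ] K))}

theorem hs (D : PkD0 N I Perp R' Γ H lamG π W E) : Str (lt E) := fun i f => D.str i.1 i.2 f

theorem h1 (D : PkD0 N I Perp R' Γ H lamG π W E) : ∀ i, lt E i 1 = 1 := fun i => D.one i.1 i.2

theorem JX_nonempty [Nonempty A] (D : PkD0 N I Perp R' Γ H lamG π W E) {j : ℕ} (h1 : 1 ≤ j)
    (hj : j ≤ N) (X : S j) : (JX (N := N) A R' X).Nonempty := by
  obtain ⟨x, hx⟩ := D.sgeo.hyp j h1 hj X
  exact ⟨(Classical.arbitrary A, x), hx⟩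

theorem JX_anti (D : PkD0 N I Perp R' Γ H lamG π W E) {i j : ℕ} {X : S i} {X' : S j}
    (h : R' i j X X') : JX (N := N) A R' X' ⊆ JX A R' X :=
  fun q hq => D.sgeo.trans i j N X X' q.2 h hq

theorem E_pi (D : PkD0 N I Perp R' Γ H lamG π W E) (g : H) (a : A) (x : S N)
    (f : C(Y N, ℂ)) (ξ : K) : E a x f (π g ξ) = π g (E a (g⁻¹ • x) f ξ) := by
  have h := D.covπ g a (g⁻¹ • x) f
  rw [smul_inv_smul] at h
  rw [← h]
  have h2 : π g⁻¹ * π g = 1 := by rw [← map_mul, inv_mul_cancel, map_one]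
  have : (π g * E a (g⁻¹ • x) f * π g⁻¹) (π g ξ) =
      π g (E a (g⁻¹ • x) f ((π g⁻¹ * π g) ξ)) := rfl
  rw [this, h2]; rfl

theorem E_gam (D : PkD0 N I Perp R' Γ H lamG π W E) (γ : Γ) (a : A) (x : S N)
    (f : C(Y N, ℂ)) (ξ : K) :
    E a x f (lamG γ ξ) = lamG γ (E a x (f.comp ⟨fun y => γ • y, continuous_const_smul γ⟩) ξ) := by
  have h := D.covG γ a x (f.comp ⟨fun y => γ • y, continuous_const_smul γ⟩)
  have e : ((f.comp ⟨fun y => γ • y, continuous_const_smul γ⟩).comp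
      ⟨fun y => γ⁻¹ • y, continuous_const_smul γ⁻¹⟩) = f := by
    ext y
    change f (γ • γ⁻¹ • y) = f y
    rw [smul_inv_smul]
  rw [e] at h
  have h2 : lamG γ⁻¹ * lamG γ = 1 := by rw [← map_mul, inv_mul_cancel, map_one]
  rw [← h]
  have : (lamG γ * E a x (f.comp ⟨fun y => γ • y, continuous_const_smul γ⟩) * lamG γ⁻¹)
      (lamG γ ξ) = lamG γ (E a x (f.comp ⟨fun y => γ • y, continuous_const_smul γ⟩)
        ((lamG γ⁻¹ * lamG γ) ξ)) := rfl
  rw [this, h2]; rfl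

/-- covariance of `R` under `π g` -/
theorem R_pi (D : PkD0 N I Perp R' Γ H lamG π W E) (g : H) {j : ℕ} (X : S j)
    (C : Set (Y N)) : ∀ ζ ∈ R (lt E) (JX A R' X) C, π g ζ ∈ R (lt E) (JX A R' (g • X)) C := by
  refine R_map (π g) (fun q : A × S N => (q.1, g⁻¹ • q.2)) (ContinuousMap.id _)
    (fun q hq => ?_) (fun q _ f ξ => ?_) fun z hz => hz
  · have := D.sgeo.act g⁻¹ j N (g • X) q.2 hq
    rwa [inv_smul_smul] at this
  · rw [ContinuousMap.comp_id]
    exact E_pi D g q.1 q.2 f ξ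

/-- covariance of `R` under `lamG γ` -/
theorem R_gam (D : PkD0 N I Perp R' Γ H lamG π W E) (γ : Γ) {j : ℕ} (X : S j)
    {C C' : Set (Y N)} (hC : ∀ z ∈ C, γ • z ∈ C') :
    ∀ ζ ∈ R (lt E) (JX A R' X) C, lamG γ ζ ∈ R (lt E) (JX A R' X) C' :=
  R_map (lamG γ) id ⟨fun y => γ • y, continuous_const_smul γ⟩ (fun _ hM => hM)
    (fun q _ f ξ => E_gam D γ q.1 q.2 f ξ) hC

theorem q_pi (D : PkD0 N I Perp R' Γ H lamG π W E) (g : H) {j : ℕ} (X : S j) (d : ℕ) :
    ∀ ζ ∈ q (lt E) (JX A R' X) (I d N), π g ζ ∈ q (lt E) (JX A R' (g • X)) (I d N) := by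
  refine q_map (π g) (fun q : A × S N => (q.1, g⁻¹ • q.2)) (ContinuousMap.id _)
    (ContinuousMap.id _) (fun q hq => ?_) (fun q _ f ξ => ?_) fun y z h => h
  · have := D.sgeo.act g⁻¹ j N (g • X) q.2 hq
    rwa [inv_smul_smul] at this
  · rw [ContinuousMap.comp_id]
    exact E_pi D g q.1 q.2 f ξ

theorem q_gam (D : PkD0 N I Perp R' Γ H lamG π W E) (γ : Γ) {j : ℕ} (X : S j) (d : ℕ) :
    ∀ ζ ∈ q (lt E) (JX A R' X) (I d N), lamG γ ζ ∈ q (lt E) (JX A R' X) (I d N) :=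
  q_map (lamG γ) id ⟨fun y => γ • y, continuous_const_smul γ⟩
    ⟨fun y => γ • y, continuous_const_smul γ⟩ (fun _ hM => hM)
    (fun q _ f ξ => E_gam D γ q.1 q.2 f ξ) fun y z h => D.gI γ d N y z h

/-- the 0-1 law for `q` -/
theorem q_zo (D : PkD0 N I Perp R' Γ H lamG π W E) {j : ℕ} (h1 : 1 ≤ j) (hj : j ≤ N)
    (X : S j) (d : ℕ) :
    q (lt E) (JX (N := N) A R' X) (I d N) = ⊤ ∨ q (lt E) (JX (N := N) A R' X) (I d N) = ⊥ := by
  have hcl : IsClosed (q (lt E) (JX (N := N) A R' X) (I d N) : Set K) := (good_q _).cl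
  have hz := D.zo j h1 hj X (pj (q (lt E) (JX A R' X) (I d N))) (pj_adj _) (pj_idem _) ?_ ?_ ?_
  · rcases hz with h | h
    · right
      rw [eq_bot_iff]
      intro ζ hζ
      have := pj_self hζ
      rw [h] at this
      exact (Submodule.mem_bot ℂ).2 this.symm
    · left
      rw [eq_top_iff]
      intro ζ _
      have := pj_mem hcl ζ
      rw [h] at this
      exact this
  · intro γ
    refine pj_comm hcl (q_gam D γ X d) ?_
    intro v hv
    rw [star_eq_adjoint, D.uG]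
    exact q_gam D γ⁻¹ X d v hv
  · intro w hw
    have : ∀ w ∈ W, ∀ a ∈ Sx (lt E) (JX (N := N) A R' X), w * a = a * w := by
      rintro w hw _ ⟨M, _, f, rfl⟩
      exact D.covW w hw M.1 M.2 f
    exact (good_q (lm := lt E) (J := JX A R' X) (I d N)).pj_comm_c (Sx_star (hs D)) (this w hw)
  · intro g hg
    refine pj_comm hcl ?_ ?_
    · intro v hv
      have := q_pi D g X d v hv
      rwa [hg] at this
    · intro v hv
      rw [star_eq_adjoint, D.uπ]
      have := q_pi D g⁻¹ X d v hv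
      rwa [show g⁻¹ • X = X by rw [inv_smul_eq_iff, hg]] at this

/-- transitivity: `q` is full at `X` iff it is full at `g • X` -/
theorem q_top_smul (D : PkD0 N I Perp R' Γ H lamG π W E) (g : H) {j : ℕ} {X : S j}
    {d : ℕ} (h : q (lt E) (JX (N := N) A R' X) (I d N) = ⊤) :
    q (lt E) (JX (N := N) A R' (g • X)) (I d N) = ⊤ := by
  rw [eq_top_iff]
  intro ζ _
  have h2 : π g * π g⁻¹ = 1 := by rw [← map_mul, mul_inv_cancel, map_one]
  have h3 : ζ = π g (π g⁻¹ ζ) := by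
    have : (π g * π g⁻¹) ζ = ζ := by rw [h2]; rfl
    exact this.symm
  rw [h3]
  exact q_pi D g X d _ (h ▸ trivial)

/-- fullness does not depend on `X` of dimension `j` -/
theorem q_top_all (D : PkD0 N I Perp R' Γ H lamG π W E) {j : ℕ} (h1 : 1 ≤ j)
    (hj : j ≤ N) {X : S j} {d : ℕ} (h : q (lt E) (JX (N := N) A R' X) (I d N) = ⊤) (X' : S j) :
    q (lt E) (JX (N := N) A R' X') (I d N) = ⊤ := by
  obtain ⟨g, rfl⟩ := D.sgeo.tra j h1 hj X X'
  exact q_top_smul D g h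

/-- fullness goes up -/
theorem q_top_mono (D : PkD0 N I Perp R' Γ H lamG π W E) {i j : ℕ} {X : S i} {X' : S j}
    (hR : R' i j X X') {d : ℕ} (h : q (lt E) (JX (N := N) A R' X) (I d N) = ⊤) :
    q (lt E) (JX (N := N) A R' X') (I d N) = ⊤ := by
  rw [eq_top_iff, ← h]
  exact q_anti (JX_anti D hR) _

/-- the values of the letters of a maximal source subspace lie in one maximal subspace -/
theorem q_pt [Nonempty A] (D : PkD0 N I Perp R' Γ H lamG π W E) (c : S 1) :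
    q (lt E) (JX (N := N) A R' c) (I 1 N) = ⊤ := by
  have hJ := JX_nonempty D le_rfl D.hN c
  refine top_of_full (h1 D) hJ (full_of_clique (hs D) (h1 D) hJ D.pgeo.cl D.pgeo.clq D.pgeo.opn ?_)
  intro T hT i hi i' hi' u h hop
  rw [← Wd_eq (E := E) (R' := R') c] at hT
  exact D.w0 c T hT i.1 i.2 i'.1 i'.2 hi hi' u h hop

end Vale.Agent.P092.H766.P3
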