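import Vale.Agent.P092.H766.P2Main
import Vale.Agent.P092.H766.P3Main
import Vale.Agent.P092.H766.P2AgrR
import Vale.Agent.P092.H766.NoInv
import Vale.Agent.P092.H702.PG
import Vale.Agent.P092.H437.P2Glue
import Vale.Agent.P092.H631.P0Loc

/-!
P092, TEAM P, stage 2, row [P2-0] (helper766): the rank count for the point letters of a leg, in
the letters `SGr σ J j` (any form, ultrametric local field).
-/

set_option linter.all false

open scoped InnerProductSpace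
open Set Filter Topology Module ContinuousLinearMap

namespace Vale.Agent.P092.H766.Z

open Vale.Agent.P092.H303 (FormGroup)
open Vale.Agent.P092.H370.Po
open Vale.Agent.P092.H714.Cl
open Vale.Agent.P092.H702.TG (YS IS CS)
open Vale.Agent.P092.H702.SG (SS RS)
open Vale.Agent.P092.RC (Cm Moore PicX)
open Vale.Agent.P092.H631.P0 (ul_of_sp)
open Vale.Agent.P092.H232 (Nin)
open Vale.Agent.P092.H437.P2 (GG' GG'_eq lc_dense)

section pic

variable {S E Γ K : Type} [Group S] [TopologicalSpace S] [Group E] [TopologicalSpace E] [Group Γ]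
  [NormedAddCommGroup K] [InnerProductSpace ℂ K] [CompleteSpace K] {ι : S →* E}
  {π : E →* (K →L[ℂ] K)} {lam : Γ →* (K →L[ℂ] K)} {W : Set (K →L[ℂ] K)} {Ω : K}

theorem zo_of (hp : PicX π lam W Ω) {T : Set S} (hM : Moore (ι '' T)) (P : K →L[ℂ] K)
    (h1 : adjoint P = P) (h2 : P * P = P) (h3 : ∀ γ, P * lam γ = lam γ * P)
    (h4 : ∀ w ∈ W, P * w = w * P) (h5 : ∀ g ∈ T, P * π (ι g) = π (ι g) * P) : P = 0 ∨ P = 1 := by
  obtain ⟨z, hz⟩ := hp.erg _ hM P h4 h3 (by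
    rintro _ ⟨g, hg, rfl⟩
    exact h5 g hg)
  by_cases hz0 : z = 0
  · left
    rw [hz, hz0, zero_smul]
  · right
    rw [hz] at h2
    have h6 : (z * z) • (1 : K →L[ℂ] K) = z • (1 : K →L[ℂ] K) := by
      rw [smul_mul_smul_comm, one_mul] at h2
      exact h2
    rw [mul_smul] at h6
    rw [hz]
    exact smul_right_injective _ hz0 h6

end pic

section ctl

variable {Y K : Type} [TopologicalSpace Y] [CompactSpace Y] [NormedAddCommGroup K]
  [InnerProductSpace ℂ K] [CompleteSpace K]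

/-- a letter of mass one as a continuous linear map -/
noncomputable def toC (U : C(Y, ℂ) →ₗ[ℂ] (K →L[ℂ] K)) (h : SP.UL U 1) :
    C(Y, ℂ) →L[ℂ] (K →L[ℂ] K) :=
  LinearMap.mkContinuous U (Real.sqrt |(1 : ℝ)|) fun f => (ul_of_sp h).norm_le f

theorem toC_apply (U : C(Y, ℂ) →ₗ[ℂ] (K →L[ℂ] K)) (h : SP.UL U 1) (f : C(Y, ℂ)) :
    toC U h f = U f := rfl

end ctl

section form

variable {n : Type} [Fintype n] [DecidableEq n] {k : Type} [NontriviallyNormedField k]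
  [ProperSpace k] {σ : k →+* k} {ε : k} {J : Matrix n n k}

/-- The base of a leg, in the letters `SGr σ J j`. -/
structure Bs {E Γ K : Type} [Group E] [TopologicalSpace E] [Group Γ] [NormedAddCommGroup K]
    [InnerProductSpace ℂ K] [CompleteSpace K] (ι : FormGroup σ J →* E) (π : E →* (K →L[ℂ] K))
    (lam : Γ →* (K →L[ℂ] K)) (W : Set (K →L[ℂ] K)) (Ω : K) (q : Γ → FormGroup σ J) : Prop where
  sur : Function.Surjective ι
  pic : PicX π lam W Ω
  am : ∀ γ γ' (j : ℕ) (X : SGr σ J j), q (γ * γ') • X = q γ • q γ' • X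
  prox : ∀ (z : SGr σ J 1) (D : Set (SGr σ J 1)), IsCompact D → (∀ y ∈ D, ¬ Col y z) →
    ∀ U : Set (SGr σ J 1), IsOpen U → U.Nonempty → ∃ γ, ∀ y ∈ D, q γ • y ∈ U
  mo : ∀ u : n → k, u ≠ 0 → hf σ J u u = 0 → ∀ T : Set (FormGroup σ J),
    (∀ g : FormGroup σ J, (∀ v, hf σ J v u = 0 → Matrix.vecMul v g.1.1 = v) → g ∈ T) →
      Moore (ι '' T)

/-- The calculi of all singular subspaces. -/
structure Cals {Γ K : Type} [Group Γ] [NormedAddCommGroup K] [InnerProductSpace ℂ K]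
    [CompleteSpace K] [Fact (Continuous σ)] (i₀ r : ℕ) (π' : FormGroup σ J →* (K →L[ℂ] K))
    (lam : Γ →* (K →L[ℂ] K)) (W : Set (K →L[ℂ] K)) (q : Γ → FormGroup σ J)
    (G : ∀ j, SGr σ J j → (C(SGr σ J j, ℂ) →⋆ₐ[ℂ] (K →L[ℂ] K))) : Prop where
  com : ∀ i j, 1 ≤ i → i ≤ j → j ≤ r → ∀ (X : SGr σ J i) (X' : SGr σ J j), Inc X X' →
    ∀ f f', Commute (G i X f) (G j X' f')
  inc : ∀ i j, 1 ≤ i → i ≤ j → j ≤ r → ∀ (X : SGr σ J i) (X' : SGr σ J j), Inc X X' →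
    ∀ u h, Nin (fun x y => Inc x y) u h → G i X u * G j X' h = 0
  cen : ∀ j, 1 ≤ j → j ≤ r → ∀ (X : SGr σ J j) (T : K →L[ℂ] K),
    (∀ (x : SGr σ J i₀) f, Inc x X → T * G i₀ x f = G i₀ x f * T) →
      ∀ f, T * G j X f = G j X f * T
  cov : ∀ j, 1 ≤ j → j ≤ r → ∀ (X : SGr σ J j) γ (f f' : C(SGr σ J j, ℂ)),
    (∀ Y, f' (q γ • Y) = f Y) → lam γ * G j X f * lam γ⁻¹ = G j X f'
  pcov : ∀ j, 1 ≤ j → j ≤ r → ∀ (X : SGr σ J j) g f, π' g * G j X f * π' g⁻¹ = G j (g • X) f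
  cm : ∀ j, 1 ≤ j → j ≤ r → ∀ (X : SGr σ J j) f, Cm W (G j X f)

variable {E Γ K : Type} [Group E] [TopologicalSpace E] [Group Γ] [NormedAddCommGroup K]
  [InnerProductSpace ℂ K] [CompleteSpace K] {ι : FormGroup σ J →* E} {π : E →* (K →L[ℂ] K)}
  {lam : Γ →* (K →L[ℂ] K)} {W : Set (K →L[ℂ] K)} {Ω : K} {q : Γ → FormGroup σ J}

theorem Bs.q1 (h : Bs ι π lam W Ω q) {j : ℕ} (X : SGr σ J j) : q 1 • X = X := by
  have h1 := h.am 1 1 j X
  rw [mul_one] at h1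
  exact (smul_left_cancel _ h1).symm

theorem Bs.qinv (h : Bs ι π lam W Ω q) (γ : Γ) {j : ℕ} (X : SGr σ J j) :
    q γ⁻¹ • X = (q γ)⁻¹ • X := by
  rw [eq_inv_smul_iff, ← h.am, mul_inv_cancel, h.q1]

/-- the action of `Γ` on the singular subspaces -/
@[reducible] def Bs.act (h : Bs ι π lam W Ω q) (r e : ℕ) : MulAction Γ (YS σ J r e) where
  smul γ X := q γ • X
  one_smul X := h.q1 (j := r + 1 - e) X
  mul_smul γ γ' X := h.am γ γ' (r + 1 - e) X

theorem Bs.ccs [Fact (Continuous σ)] (h : Bs ι π lam W Ω q) (r e : ℕ) :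
    @ContinuousConstSMul Γ (YS σ J r e) _ (h.act r e).toSMul :=
  letI := h.act r e
  ⟨fun γ => continuous_const_smul (q γ)⟩

/-- the zero-one law for tuples of singular subspaces in `u^⊥` -/
theorem Bs.zo (h : Bs ι π lam W Ω q) {u : n → k} (hu0 : u ≠ 0) (hu : hf σ J u u = 0)
    (P : K →L[ℂ] K) (h1 : adjoint P = P) (h2 : P * P = P) (h3 : ∀ γ, P * lam γ = lam γ * P)
    (h4 : ∀ w ∈ W, P * w = w * P)
    (h5 : ∀ g : FormGroup σ J, (∀ (j : ℕ) (A : SGr σ J j), (∀ a ∈ A.S, hf σ J a u = 0) →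
      g • A = A) → P * π (ι g) = π (ι g) * P) : P = 0 ∨ P = 1 := by
  refine zo_of h.pic (T := {g | ∀ (j : ℕ) (A : SGr σ J j), (∀ a ∈ A.S, hf σ J a u = 0) →
      g • A = A}) (h.mo u hu0 hu _ ?_) P h1 h2 h3 h4 fun g hg => h5 g hg
  intro g hg j A hA
  exact smul_eq_of_fix fun x hx => hg x (hA x hx)

theorem exists_vec {j : ℕ} (hj : 1 ≤ j) (X : SGr σ J j) : ∃ u ∈ X.S, u ≠ 0 := by
  refine Submodule.exists_mem_ne_zero_of_ne_bot fun h0 => ?_
  have := X.dim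
  rw [h0, finrank_bot] at this
  omega

theorem Bs.noinv [IsUltrametricDist k] [Fact (Continuous σ)] (h : Bs ι π lam W Ω q)
    (hF : Frm σ ε J) (x₀ : SGr σ J 1) {j : ℕ} (hj : 1 ≤ j)
    (G : C(SGr σ J j, ℂ) →⋆ₐ[ℂ] (K →L[ℂ] K)) (h3 : ∀ g f, π (ι g) * G f = G f * π (ι g))
    (h4 : ∀ w ∈ W, ∀ f, w * G f = G f * w)
    (h5 : ∀ γ (f f' : C(SGr σ J j, ℂ)), (∀ X, f' (q γ • X) = f X) →
      lam γ * G f * lam γ⁻¹ = G f') : False := by
  haveI : TotallyDisconnectedSpace (SGr σ J j) := H437.P2.tdS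
  haveI : TotallyDisconnectedSpace (SGr σ J 1) := H437.P2.tdS
  refine NI.noinv hF x₀ h.pic h.prox hj G (fun g f => ?_) h4 h5
  obtain ⟨g, rfl⟩ := h.sur g
  exact h3 g f

end form

end Vale.Agent.P092.H766.Z
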