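import Vale.Agent.P092.H766.Z8
import Vale.Agent.P092.H766.Z9
import Vale.Agent.P092.H145.G11
import Vale.Agent.P092.H43.G.PurLt
import Vale.Agent.P092.H541.CL.Fix0Lt
import Vale.Agent.P092.H589.P2e

/-!
P092, TEAM P, stage 2 (helper766): **WITT INDEX `r ≥ 3`, ULTRAMETRIC, EVERY FORM: a leg is straight
and all its calculi commute** (`CL.OneStmt (lt ..)` for `s ≥ 1`).
-/

set_option linter.all false

open scoped InnerProductSpace
open Set Filter Topology Module ContinuousLinearMap MeasureTheory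

namespace Vale.Agent.P092.H766.Z

open Vale.Agent.P092.H303 (FormGroup Idx hyp)
open Vale.Agent.P092.H370.Po
open Vale.Agent.P092.H714.Cl
open Vale.Agent.P092.CL (Lt Geo PB UFam HFam LegP LegS OneStmt PurStmt lt V2)
open Vale.Agent.P092.H437.P2 (Fix0 Cnt0)

section gen

variable {n : Type} [Fintype n] [DecidableEq n] {k : Type} [NontriviallyNormedField k]
  [ProperSpace k] {σ : k →+* k} {ε : k} {J : Matrix n n k} [Fact (Continuous σ)]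
  [IsUltrametricDist k]
  {r : ℕ} {V₁ V₂ : Type} [MeasurableSpace V₁] [MeasurableSpace V₂] [NormedAddCommGroup V₁]
  [NormedAddCommGroup V₂] [ProperSpace V₁] [BorelSpace V₁]
  {L : Lt (FormGroup σ J) (SGr σ J 1) (SGr σ J r) V₁ V₂}

/-- the two word lemmas for the record `L` -/
def WdS (L : Lt (FormGroup σ J) (SGr σ J 1) (SGr σ J r) V₁ V₂) : Prop :=
  ∀ {E Γ K : Type} [Group E] [TopologicalSpace E] [Group Γ] [NormedAddCommGroup K]
    [InnerProductSpace ℂ K] [CompleteSpace K] (𝒰 : Ultrafilter ℕ) (ι : FormGroup σ J →* E)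
    (π : E →* (K →L[ℂ] K)) (lam : Γ →* (K →L[ℂ] K)) (W : Set (K →L[ℂ] K)) (Ω : K)
    (m : Set Γ → (K →L[ℂ] K)) (q : Γ → FormGroup σ J), PB L 𝒰 ι π lam W Ω m q →
    (∀ U11 : SGr σ J 1 → (C(SGr σ J 1, ℂ) →ₗ[ℂ] (K →L[ℂ] K)),
      UFam 𝒰 L.b1 L.p0 ι π lam W m q (L.na1 q) U11 1 → W0L L U11) ∧
    ∀ U21 : SGr σ J r → (C(SGr σ J 1, ℂ) →ₗ[ℂ] (K →L[ℂ] K)),
      UFam 𝒰 L.b2 L.m0 ι π lam W m q (L.na1 q) U21 1 → W0M L U21

/-- **Witt index `r ≥ 3`, general record** -/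
theorem one_gen [IsFiniteMeasureOnCompacts L.μ₁] [L.μ₁.IsOpenPosMeasure] (hF : Frm σ ε J)
    (hW : WI σ J r) (hr : 3 ≤ r) (hIn : ∀ x l, L.In x l ↔ Inc x l) (hG : Geo L)
    (hP : PurStmt L) (hI : H306.G.PurIn L) (hw : WdS L) (fix : Fix0 L)
    (cnt : ∀ {Γ : Type} {q : Γ → FormGroup σ J}, L.UD q → ∀ (K : Type) [NormedAddCommGroup K]
      [InnerProductSpace ℂ K] [CompleteSpace K], Cnt0 L q K) : OneStmt L := by
  intro E Γ K _ _ _ _ _ _ 𝒰 ι π lam W Ω m q h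
  obtain ⟨U11, p11, U12, p12, U21, p21, U22, p22, h⟩ := h
  rcases hP 𝒰 ι π lam W Ω m q U11 p11 U12 p12 U21 p21 U22 p22 h with ⟨e1, e2⟩ | ⟨e1, e2⟩
  · subst e1
    obtain ⟨G, hS⟩ := str_of hF hW (by omega) hIn hG h rfl e2
      ((hw 𝒰 ι π lam W Ω m q h.base).1 U11 h.u11)
    obtain ⟨N, rfl⟩ : ∃ N, r = N + 1 := ⟨r - 1, by omega⟩
    have hC := hS.cals.calP hS.bs hF hW (by omega)
    have hK := H437.P2.key0_of_cnt hF (by omega) hG h.base hS.gdat hC hS.leg.e.dom fix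
      (cnt h.base.ud K)
    have pts := H437.P2.pts_commS hF hW hF (by omega) L.m0 hC hK
    have hall := hS.cals.all hS.bs hF hW (by omega) fun a b hab f g => pts a b hab f g
    exact ⟨G 1, G (N + 1), hS.leg, fun c c' f g => hall 1 1 le_rfl (by omega) le_rfl (by omega)
      c c' f g, fun c c' f g => hall (N + 1) (N + 1) (by omega) le_rfl (by omega) le_rfl
      c c' f g, fun c l f g => hall 1 (N + 1) le_rfl (by omega) (by omega) le_rfl c l f g⟩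
  · subst e2
    exact (no_flip hF hW hr hIn hG hI h rfl
      ((hw 𝒰 ι π lam W Ω m q h.base).2 U21 h.u21)).elim

end gen

section main

variable {k : Type} [NontriviallyNormedField k] [IsUltrametricDist k] [ProperSpace k]
  [MeasurableSpace k] {κ : Type} [Fintype κ] [DecidableEq κ]
  {s : ℕ} {σ : k →+* k} {ε : k} {J₀ : Matrix κ κ k} [Fact (Continuous σ)]

theorem wdS_lt [BorelSpace k] (hF : Frm σ ε (hyp (s + 2) ε J₀)) (hσn : ∀ x, ‖σ x‖ = ‖x‖) {w : k}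
    (hw : w ≠ 0) (hσw : σ w = w) (μ₁ : Measure k) [IsFiniteMeasureOnCompacts μ₁]
    [μ₁.IsOpenPosMeasure] (μ₂ : Measure (V2 σ ε)) [IsFiniteMeasureOnCompacts μ₂]
    [μ₂.IsOpenPosMeasure] (hG : Geo (lt hF hw hσw μ₁ μ₂)) : WdS (lt hF hw hσw μ₁ μ₂) := by
  intro E Γ K _ _ _ _ _ _ 𝒰 ι π lam W Ω m q hB
  refine ⟨fun U11 hU X T hT x x' hx hx' u f huf => ?_, fun U21 hU c T hT y y' hy hy' u f huf => ?_⟩
  · exact H145.G11.w0s_lt hσn hG hB hU X hT hx hx' u f huf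
  · exact H145.G11.w0f_lt hσn hG hB hU c hT hy hy' u f huf

/-- **[CL-ONE], `r ≥ 3`, ultrametric, every form** -/
theorem one_lt3 [BorelSpace k] (hF : Frm σ ε (hyp (s + 2) ε J₀))
    (hW : WI σ (hyp (s + 2) ε J₀) (s + 2)) (hs : 1 ≤ s) (hσn : ∀ x, ‖σ x‖ = ‖x‖) {w : k}
    (hw : w ≠ 0) (hσw : σ w = w) (μ₁ : Measure k) [IsFiniteMeasureOnCompacts μ₁]
    [μ₁.IsOpenPosMeasure] (μ₂ : Measure (V2 σ ε)) [IsFiniteMeasureOnCompacts μ₂]
    [μ₂.IsOpenPosMeasure] (hG : Geo (lt hF hw hσw μ₁ μ₂)) : OneStmt (lt hF hw hσw μ₁ μ₂) := by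
  haveI : IsFiniteMeasureOnCompacts (lt hF hw hσw μ₁ μ₂).μ₁ :=
    inferInstanceAs (IsFiniteMeasureOnCompacts μ₁)
  haveI : (lt hF hw hσw μ₁ μ₂).μ₁.IsOpenPosMeasure := inferInstanceAs μ₁.IsOpenPosMeasure
  have h1 : PurStmt (lt hF hw hσw μ₁ μ₂) := by
    exact H43.G.purStmt_lt hF hW hσn hw hσw μ₁ μ₂ hG
  have h2 := H43.G.purIn_lt' hF hW hσn hw hσw μ₁ μ₂
  have h3 : WdS (lt hF hw hσw μ₁ μ₂) := by
    exact wdS_lt hF hσn hw hσw μ₁ μ₂ hG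
  have h4 : Fix0 (lt hF hw hσw μ₁ μ₂) := fun P c l b _ hlP hbP hcb hcl _ =>
    H541.CLF.fix0 hF hw hσw μ₁ μ₂ P c l b hlP hbP hcb hcl
  intro E Γ K _ _ _ _ _ _ 𝒰 ι π lam W Ω m q h
  exact one_gen (L := lt hF hw hσw μ₁ μ₂) hF hW (by omega) (fun x l => Iff.rfl) hG @h1 h2 @h3 h4
    (fun hud K => H589.P2.cnt0_lt hF hσn hw hσw μ₁ μ₂ hud K) 𝒰 ι π lam W Ω m q h

end main

end Vale.Agent.P092.H766.Z
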