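import Vale.Agent.P092.H766.Z4
import Vale.Agent.P092.H828.P.Q0d

/-!
P092, TEAM P, stage 2 (helper766): the letters of the maximal subspaces are their calculi
(`top_eq`).
-/

set_option linter.all false

open scoped InnerProductSpace
open Set Filter Topology Module ContinuousLinearMap

namespace Vale.Agent.P092.H766.Z

open Vale.Agent.P092.H303 (FormGroup)
open Vale.Agent.P092.H370.Po
open Vale.Agent.P092.H714.Cl
open Vale.Agent.P092.RC (Cm Moore PicX)
open Vale.Agent.P092.H631.P0 (ul_of_sp)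
open Vale.Agent.P092.H232 (Nin two_ind split_inc)
open Vale.Agent.P092.H437.P2 (lc_dense CalP)

section agree

variable {B X Z K : Type*} [TopologicalSpace B] [CompactSpace B] [T2Space B]
  [TopologicalSpace X] [CompactSpace X] [T2Space X] [TotallyDisconnectedSpace X]
  [TopologicalSpace Z] [CompactSpace Z] [T2Space Z]
  [NormedAddCommGroup K] [InnerProductSpace ℂ K] [CompleteSpace K]

/-- the lemma `H437.P2.agree` with a linear letter `β` -/
theorem agree_lin {I : X → Z → Prop} {O : B → X → Prop} {O' : B → Z → Prop}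
    (hI : IsClosed {q : X × Z | I q.1 q.2}) (hO : IsClosed {q : B × X | O q.1 q.2})
    (hyp : ∀ b z x x', ¬ O' b z → I x z → I x' z → O b x → O b x' → x = x')
    {φ₁ φ₂ : C(X, ℂ) →⋆ₐ[ℂ] (K →L[ℂ] K)} {ψ : C(Z, ℂ) →⋆ₐ[ℂ] (K →L[ℂ] K)}
    {β : C(B, ℂ) →ₗ[ℂ] (K →L[ℂ] K)}
    (c₁ : ∀ g u, Commute (φ₁ g) (ψ u)) (c₂ : ∀ g u, Commute (φ₂ g) (ψ u))
    (i₁ : ∀ g u, Nin I g u → φ₁ g * ψ u = 0) (i₂ : ∀ g u, Nin I g u → φ₂ g * ψ u = 0)
    (k₁ : ∀ g a, Nin O a g → φ₁ g * β a = 0) (k₂ : ∀ g a, Nin O a g → φ₂ g * β a = 0)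
    (u : C(Z, ℂ)) (a : C(B, ℂ)) (hn : Nin O' a u) (g : C(X, ℂ)) :
    (φ₁ g - φ₂ g) * (ψ u * β a) = 0 := by
  refine lc_dense (P := fun g => (φ₁ g - φ₂ g) * (ψ u * β a) = 0) ?_ ?_ g
  · have h1 : Continuous fun g : C(X, ℂ) => (φ₁ g - φ₂ g) * (ψ u * β a) := by
      have e1 : Continuous φ₁ := AddMonoidHomClass.continuous_of_bound φ₁ 1 fun f => by
        rw [one_mul]; exact NonUnitalStarAlgHom.norm_apply_le φ₁ f
      have e2 : Continuous φ₂ := AddMonoidHomClass.continuous_of_bound φ₂ 1 fun f => by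
        rw [one_mul]; exact NonUnitalStarAlgHom.norm_apply_le φ₂ f
      exact (e1.sub e2).mul continuous_const
    exact isClosed_eq h1 continuous_const
  · intro g hg
    refine two_ind (A := K →L[ℂ] K) (S₁ := tsupport ⇑u) (S₂ := tsupport ⇑a)
      (fun u' a' => (φ₁ g - φ₂ g) * (ψ u' * β a'))
      (fun u' u'' a' => by simp only [map_add, mul_add, add_mul])
      (fun u' a' a'' => by simp only [map_add, mul_add])
      (isClosed_tsupport _).isCompact (isClosed_tsupport _).isCompact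
      (fun z hz b hb => ?_) u a subset_rfl subset_rfl
    have hbz : ¬ O' b z := hn b hb z hz
    obtain ⟨κ, hκ⟩ : ∃ κ : ℂ, ∀ x ∈ tsupport ⇑(g - κ • (1 : C(X, ℂ))), I x z → O b x → False := by
      by_cases hc : ∃ x, I x z ∧ O b x
      · obtain ⟨x₀, h1, h2⟩ := hc
        refine ⟨g x₀, fun x hx h3 h4 => ?_⟩
        rw [hyp b z x x₀ hbz h3 h1 h4 h2] at hx
        have hcl : IsClosed {x | g x ≠ g x₀} := (hg.isOpen_fiber (g x₀)).isClosed_compl
        have hsub : tsupport ⇑(g - g x₀ • (1 : C(X, ℂ))) ⊆ {x | g x ≠ g x₀} := by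
          refine closure_minimal (fun x hx hx' => hx ?_) hcl
          have : g x = g x₀ := hx'
          simp [this]
        exact hsub hx rfl
      · exact ⟨0, fun x _ h1 h2 => hc ⟨x, h1, h2⟩⟩
    have hI' : IsClosed {q : Z × X | I q.2 q.1} := hI.preimage continuous_swap
    obtain ⟨h₁, h₂, hh, U, V, hU, hzU, hV, hbV, e1, e2⟩ :=
      split_inc (I₁ := fun z x => I x z) (I₂ := fun b x => O b x) hI' hO (x := z) (y := b)
        (g - κ • (1 : C(X, ℂ))) hκ
    refine ⟨U, V, hU, hzU, hV, hbV, fun u' a' hu' ha' => ?_⟩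
    have key : ∀ φ : C(X, ℂ) →⋆ₐ[ℂ] (K →L[ℂ] K), (∀ g u, Commute (φ g) (ψ u)) →
        (∀ g u, Nin I g u → φ g * ψ u = 0) → (∀ g a, Nin O a g → φ g * β a = 0) →
        φ g * (ψ u' * β a') = κ • (ψ u' * β a') := by
      intro φ c i kk
      have d1 : φ h₁ * ψ u' = 0 := i _ _ fun x hx z' hz' h => e1 u' hu' z' hz' x hx h
      have d2 : φ h₂ * β a' = 0 := kk _ _ (e2 a' ha')
      have d3 : φ (g - κ • (1 : C(X, ℂ))) * (ψ u' * β a') = 0 := by
        rw [hh, map_add, add_mul, ← mul_assoc, d1, zero_mul, zero_add]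
        calc φ h₂ * (ψ u' * β a') = ψ u' * (φ h₂ * β a') := by
              rw [← mul_assoc, (c h₂ u').eq, mul_assoc]
          _ = 0 := by rw [d2, mul_zero]
      rw [map_sub, map_smul, map_one, sub_mul, sub_eq_zero] at d3
      rw [d3, smul_mul_assoc, one_mul]
    rw [sub_mul, key φ₁ c₁ i₁ k₁, key φ₂ c₂ i₂ k₂, sub_self]

end agree

variable {n : Type} [Fintype n] [DecidableEq n] {k : Type} [NontriviallyNormedField k]
  [ProperSpace k] {σ : k →+* k} {ε : k} {J : Matrix n n k}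
  {E Γ K : Type} [Group E] [TopologicalSpace E] [Group Γ] [NormedAddCommGroup K]
  [InnerProductSpace ℂ K] [CompleteSpace K] {ι : FormGroup σ J →* E} {π : E →* (K →L[ℂ] K)}
  {lam : Γ →* (K →L[ℂ] K)} {W : Set (K →L[ℂ] K)} {Ω : K} {q : Γ → FormGroup σ J}
  [Fact (Continuous σ)] [IsUltrametricDist k]
  {i₀ r : ℕ} {G : ∀ j, SGr σ J j → (C(SGr σ J j, ℂ) →⋆ₐ[ℂ] (K →L[ℂ] K))}

/-- two different hyperplanes of a singular subspace -/
theorem exists_two_hyp {j : ℕ} (hj : 1 ≤ j) (X : SGr σ J (j + 1)) :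
    ∃ A B : SGr σ J j, A ≠ B ∧ Inc A X ∧ Inc B X := by
  obtain ⟨A, hA⟩ := exists_inc_le (i := j) (by omega) X
  obtain ⟨y, hy, hye⟩ := exists_gen hA A.dim X.dim
  obtain ⟨s, rfl⟩ : ∃ s, j = s + 1 := ⟨j - 1, by omega⟩
  obtain ⟨C, hC⟩ := exists_inc_le (i := s) (by omega) A
  have hyX : y ∈ X.S := by
    rw [hye]; exact (le_sup_right : Submodule.span k {y} ≤ _) (Submodule.mem_span_singleton_self y)
  have hyC : y ∉ C.S := fun h => hy (hC h)
  have hle : C.S ⊔ Submodule.span k {y} ≤ X.S :=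
    sup_le (le_trans hC hA) ((Submodule.span_singleton_le_iff_mem _ _).2 hyX)
  refine ⟨A, SGr.mk' (C.S ⊔ Submodule.span k {y}) (X.sing.mono hle)
    (by rw [finrank_sup_span hyC, C.dim]), fun h => hy ?_, hA, hle⟩
  rw [h]
  exact (le_sup_right : Submodule.span k {y} ≤ _) (Submodule.mem_span_singleton_self y)

/-- a letter `V` incident with the points of a subspace is incident with its calculi -/
theorem Cals.inc_lin (hG : Cals i₀ r (π.comp ι) lam W q G) (hb : Bs ι π lam W Ω q)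
    (hF : Frm σ ε J) (hW : WI σ J r) {l : SGr σ J r} {V : C(SGr σ J r, ℂ) →ₗ[ℂ] (K →L[ℂ] K)}
    (i1 : ∀ x : SGr σ J 1, Inc x l → ∀ f g, Nin (fun x y => Inc x y) f g → G 1 x f * V g = 0) :
    ∀ j, 1 ≤ j → j ≤ r → ∀ X : SGr σ J j, Inc X l → ∀ f g, Nin (fun x y => Inc x y) f g →
      G j X f * V g = 0 := by
  intro j h1
  induction j, h1 using Nat.le_induction with
  | base => exact fun _ => i1
  | succ j hj ih =>
    intro hjr X hX f g hfg
    haveI : TotallyDisconnectedSpace (SGr σ J j) := H437.P2.tdS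
    obtain ⟨A, B, hAB, hA, hB⟩ := exists_two_hyp hj X
    ext ξ
    change (G (j + 1) X f * V g) ξ = 0
    refine hG.agr_in hb hF hW hj (by omega) hAB ⟨X, hA, hB⟩ _ fun h => ?_
    have key := agree_lin (I := fun (x : SGr σ J j) (z : SGr σ J (j + 1)) => Inc x z)
      (O := fun (b : SGr σ J r) (x : SGr σ J j) => Inc x b)
      (O' := fun (b : SGr σ J r) (z : SGr σ J (j + 1)) => Inc z b) inc_closed
      (inc_closed.preimage (f := fun p : SGr σ J r × SGr σ J j => (p.2, p.1)) (by fun_prop))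
      (fun b z x x' h1 h2 h3 h4 h5 => by
        by_contra hne
        apply h1
        change z.S ≤ b.S
        rw [← H702.PG.sup_eq hne h2 h3]
        exact sup_le h4 h5) (φ₁ := G j A) (φ₂ := G j B) (ψ := G (j + 1) X) (β := V)
      (fun g u => hG.com j (j + 1) hj (by omega) hjr A X hA g u)
      (fun g u => hG.com j (j + 1) hj (by omega) hjr B X hB g u)
      (fun g u hn => hG.inc j (j + 1) hj (by omega) hjr A X hA g u hn)
      (fun g u hn => hG.inc j (j + 1) hj (by omega) hjr B X hB g u hn)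
      (fun g a hn => ih (by omega) A (hA.trans hX) g a fun x hx y hy => hn y hy x hx)
      (fun g a hn => ih (by omega) B (hB.trans hX) g a fun x hx y hy => hn y hy x hx)
      f g (fun x hx y hy => hfg y hy x hx) h
    have := congrArg (fun T : K →L[ℂ] K => T ξ) key
    exact sub_eq_zero.1 this

/-- **the letters of the maximal subspaces are their calculi** -/
theorem Cals.top_eq (hG : Cals i₀ r (π.comp ι) lam W q G) (hb : Bs ι π lam W Ω q)
    (hF : Frm σ ε J) (hr : 1 ≤ r) (hW : WI σ J r) {l : SGr σ J r}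
    {V : C(SGr σ J r, ℂ) →ₗ[ℂ] (K →L[ℂ] K)} (hV : SP.UL V 1)
    (i1 : ∀ x : SGr σ J 1, Inc x l → ∀ f g, Nin (fun x y => Inc x y) f g → G 1 x f * V g = 0)
    (f : C(SGr σ J r, ℂ)) : G r l f = V f := by
  have h1 : SP.UL ((G r l : C(SGr σ J r, ℂ) →⋆ₐ[ℂ] (K →L[ℂ] K)) :
      C(SGr σ J r, ℂ) →ₗ[ℂ] (K →L[ℂ] K)) 1 := SP.UL.of_hom (G r l)
  have h2 := (ul_of_sp h1).mul_of_disj (ul_of_sp hV) (fun f g hd =>
    hG.inc_lin hb hF hW i1 r hr le_rfl l (Inc.refl l) f g fun x hx y hy hxy => by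
      have e : x = y := inc_iff_eq.1 hxy
      subst e
      exact disjoint_left.1 hd hx hy) f 1
  have h3 : G r l f * V 1 = ((1 : ℝ) : ℂ) • V (f * 1) := h2
  rw [hV.one, mul_one, Complex.ofReal_one, one_smul, one_smul, mul_one] at h3
  exact h3

end Vale.Agent.P092.H766.Z
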