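import Vale.Agent.P092.H766.Z5
import Vale.Agent.P092.H416.CLfix
import Vale.Agent.P092.H437.CLKey0
import Vale.Agent.P092.CL.Quad

/-!
P092, TEAM P, stage 2 (helper766): the straight leg of Witt index `r ≥ 2` in the letters of
`CL/Defs` (`S = FormGroup σ J`, `P = SGr σ J 1`, `M = SGr σ J r`).
-/

set_option linter.all false

open scoped InnerProductSpace
open Set Filter Topology Module ContinuousLinearMap

namespace Vale.Agent.P092.H766.Z

open Vale.Agent.P092.H303 (FormGroup)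
open Vale.Agent.P092.H370.Po
open Vale.Agent.P092.H714.Cl
open Vale.Agent.P092.RC (Cm Moore PicX)
open Vale.Agent.P092.H232 (Nin)
open Vale.Agent.P092.CL (Lt Geo PB UFam HFam LegP LegS act)
open Vale.Agent.P092.H437.P2 (GDat CalP)

variable {n : Type} [Fintype n] [DecidableEq n] {k : Type} [NontriviallyNormedField k]
  [ProperSpace k] {σ : k →+* k} {ε : k} {J : Matrix n n k} [Fact (Continuous σ)]
  {r : ℕ} {V₁ V₂ : Type} [MeasurableSpace V₁] [MeasurableSpace V₂] [NormedAddCommGroup V₁]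
  [NormedAddCommGroup V₂] {L : Lt (FormGroup σ J) (SGr σ J 1) (SGr σ J r) V₁ V₂}
  {E Γ K : Type} [Group E] [TopologicalSpace E] [Group Γ] [NormedAddCommGroup K]
  [InnerProductSpace ℂ K] [CompleteSpace K] {𝒰 : Ultrafilter ℕ} {ι : FormGroup σ J →* E}
  {π : E →* (K →L[ℂ] K)} {lam : Γ →* (K →L[ℂ] K)} {W : Set (K →L[ℂ] K)} {Ω : K}
  {m : Set Γ → (K →L[ℂ] K)} {q : Γ → FormGroup σ J}

/-- an element which fixes all points fixes all subspaces -/
theorem fix_all {z : FormGroup σ J} (h : ∀ x : SGr σ J 1, z • x = x) {j : ℕ} (X : SGr σ J j) :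
    z • X = X := by
  refine (SGr.eq_of_le (X := X) (Y := z • X) fun v hv => ?_).symm
  by_cases h0 : v = 0
  · rw [h0]; exact zero_mem _
  · have hle : Submodule.span k {v} ≤ X.S := (Submodule.span_singleton_le_iff_mem _ _).2 hv
    set x : SGr σ J 1 := SGr.mk' (Submodule.span k {v}) (X.sing.mono hle)
      (finrank_span_singleton h0) with hx
    have h1 : Inc x X := hle
    have h2 : Inc (z • x) (z • X) := (inc_smul z).2 h1
    rw [h x] at h2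
    exact h2 (Submodule.mem_span_singleton_self v)

theorem act_mul_of (hG : Geo L) (hB : PB L 𝒰 ι π lam W Ω m q) (γ γ' : Γ) {j : ℕ}
    (X : SGr σ J j) : q (γ * γ') • X = q γ • q γ' • X := by
  obtain ⟨z, hz, e⟩ := hB.ph γ γ'
  rw [e, mul_smul, mul_smul, fix_all (hG.z_P z hz)]

/-- **the base of the rank count from the base record of the leg** -/
theorem bs_of (hF : Frm σ ε J) (hIn : ∀ x l, L.In x l ↔ Inc x l) (hG : Geo L)
    (hB : PB L 𝒰 ι π lam W Ω m q) : Bs ι π lam W Ω q where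
  sur := hB.adm.sur
  pic := hB.pic
  am γ γ' j X := act_mul_of hG hB γ γ' X
  prox z D hD hDz U hU hUn := by
    refine hB.prox1 z D hD (fun y hy l h1 h2 => hDz y hy fun a ha b hb => ?_) U hU hUn
    exact l.sing a ((hIn _ _).1 h1 ha) b ((hIn _ _).1 h2 hb)
  mo u hu0 hu T hT := H416.CL.moore_fix hG hB.adm hF Fact.out hu0 hu hT

theorem act_eq {Y : Type} [TopologicalSpace Y] [MulAction (FormGroup σ J) Y]
    [ContinuousConstSMul (FormGroup σ J) Y] {g : FormGroup σ J} {f f' : C(Y, ℂ)}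
    (h : ∀ y, f' (g • y) = f y) : act g f = f' := by
  ext y
  change f (g⁻¹ • y) = f' y
  rw [← h, smul_inv_smul]

theorem ltr_of {a i : ℕ} {b : FormGroup σ J} {v0 : SGr σ J a}
    {NA : ℝ → ℝ → Set (SGr σ J i) → Set Γ}
    {U : SGr σ J a → (C(SGr σ J i, ℂ) →ₗ[ℂ] (K →L[ℂ] K))}
    (hU : UFam 𝒰 b v0 ι π lam W m q NA U 1) : Ltr ι π lam W q U where
  ul := hU.ul
  cm := hU.cm
  cov γ v f f' h := by
    rw [← act_eq h]
    exact hU.cov γ v f
  pcov := hU.pcov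

variable [IsUltrametricDist k]

/-- the word lemma for the letters of the points, as a hypothesis on one leg -/
def W0L (L : Lt (FormGroup σ J) (SGr σ J 1) (SGr σ J r) V₁ V₂)
    (U11 : SGr σ J 1 → (C(SGr σ J 1, ℂ) →ₗ[ℂ] (K →L[ℂ] K))) : Prop :=
  ∀ X : SGr σ J r, ∀ T ∈ Submonoid.closure {T : K →L[ℂ] K | ∃ x f, L.In x X ∧ T = U11 x f},
    ∀ x x', L.In x X → L.In x' X → ∀ u h : C(SGr σ J 1, ℂ),
      (∀ y ∈ tsupport u, ∀ y' ∈ tsupport h, ¬ Col y y') → U11 x u * T * U11 x' h = 0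

/-- **the calculi of a straight leg** -/
structure Str (L : Lt (FormGroup σ J) (SGr σ J 1) (SGr σ J r) V₁ V₂) (𝒰 : Ultrafilter ℕ)
    (ι : FormGroup σ J →* E) (π : E →* (K →L[ℂ] K)) (lam : Γ →* (K →L[ℂ] K))
    (W : Set (K →L[ℂ] K)) (Ω : K) (m : Set Γ → (K →L[ℂ] K)) (q : Γ → FormGroup σ J)
    (G : ∀ j, SGr σ J j → (C(SGr σ J j, ℂ) →⋆ₐ[ℂ] (K →L[ℂ] K))) : Prop where
  bs : Bs ι π lam W Ω q
  cals : Cals 1 r (π.comp ι) lam W q G
  leg : LegS L 𝒰 ι π lam W Ω m q (G 1) (G r)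

theorem str_of (hF : Frm σ ε J) (hW : WI σ J r) (hr : 2 ≤ r)
    (hIn : ∀ x l, L.In x l ↔ Inc x l) (hG : Geo L)
    {U11 : SGr σ J 1 → (C(SGr σ J 1, ℂ) →ₗ[ℂ] (K →L[ℂ] K))} {p11 : ℝ}
    {U12 : SGr σ J 1 → (C(SGr σ J r, ℂ) →ₗ[ℂ] (K →L[ℂ] K))} {p12 : ℝ}
    {U21 : SGr σ J r → (C(SGr σ J 1, ℂ) →ₗ[ℂ] (K →L[ℂ] K))} {p21 : ℝ}
    {U22 : SGr σ J r → (C(SGr σ J r, ℂ) →ₗ[ℂ] (K →L[ℂ] K))} {p22 : ℝ}
    (h : LegP L 𝒰 ι π lam W Ω m q U11 p11 U12 p12 U21 p21 U22 p22) (h1 : p11 = 1)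
    (h2 : p22 = 1) (w0 : W0L L U11) :
    ∃ G : ∀ j, SGr σ J j → (C(SGr σ J j, ℂ) →⋆ₐ[ℂ] (K →L[ℂ] K)),
      Str L 𝒰 ι π lam W Ω m q G := by
  subst h1 h2
  have hb := bs_of hF hIn hG h.base
  obtain ⟨G, hG1, hC⟩ := out_straight (i := 1) hb hF (by omega) hW (by omega)
    (ltr_of h.u11) (fun X T hT x x' hx hx' u f huf => w0 X T (by
      refine Submonoid.closure_mono ?_ hT
      rintro _ ⟨y, f, hy, rfl⟩
      exact ⟨y, f, (hIn _ _).2 hy, rfl⟩) x x' ((hIn _ _).2 hx) ((hIn _ _).2 hx') u f huf)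
  have hGr : ∀ l f, G r l f = U22 l f := fun l f =>
    hC.top_eq hb hF (by omega) hW (h.u22.ul l) (fun x hx f g hn => by
      rw [hG1]
      exact h.i11 x l ((hIn _ _).2 hx) f g fun a ha c hc hac => hn a ha c hc ((hIn _ _).1 hac)) f
  exact ⟨G, hb, hC, h.base, h.u11.hfam one_ne_zero hG1, h.u22.hfam one_ne_zero hGr,
    fun c l hcl => ⟨fun f g => hC.com 1 r le_rfl (by omega) le_rfl c l ((hIn _ _).1 hcl) f g,
      fun f g hn => hC.inc 1 r le_rfl (by omega) le_rfl c l ((hIn _ _).1 hcl) f g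
        fun a ha b hb' hab => hn a ha b hb' ((hIn _ _).2 hab)⟩⟩

theorem Str.gdat {G : ∀ j, SGr σ J j → (C(SGr σ J j, ℂ) →⋆ₐ[ℂ] (K →L[ℂ] K))}
    (h : Str L 𝒰 ι π lam W Ω m q G) : GDat ι π lam W q r G where
  cm j h1 h2 X f := h.cals.cm j h1 h2 X f
  cov j h1 h2 γ X f := h.cals.cov j h1 h2 X γ f _ fun Y => by
    change f ((q γ)⁻¹ • q γ • Y) = f Y
    rw [inv_smul_smul]
  pcov j h1 h2 g X f := by
    have := h.cals.pcov j h1 h2 X g f
    change π (ι g) * G j X f * π (ι g⁻¹) = G j (g • X) f at this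
    rwa [map_inv ι g] at this

end Vale.Agent.P092.H766.Z
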